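import Vale.Agent.P355.H138.Ent
import Vale.Agent.P355.H129.Conv

/-! From a linear relation between graphs given by packed columns to a packed relation between
class values. -/

namespace Vale.Agent.P355.H138

open Finset
open Vale.Agent.P355.H129 (force force_eq NRep RelPack)

set_option linter.unusedSectionVars false

variable {x : Fin 7 → Fin 7 → ℂ} {K W : ℕ} {val : ℕ → ℝ} {E : Type}

/-- `n` octal digits. -/
def octL (n : ℕ) : ℕ → List ℕ :=
  Nat.rec (motive := fun _ => ℕ → List ℕ) (fun _ => [])
    (fun _ ih d => force (Nat.mod d 8) fun a => force (Nat.shiftRight d 3) fun d' =>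
      List.cons a (ih d')) n

/-- check of one graph; `d`: placement of the rows (18 bits), of the columns (18 bits),
transposition, class number. -/
noncomputable def mck (k : Cst) (K : ℕ) (tr : Tr) (pr : ℕ) (cols : List ℕ) (d : ℕ) : Bool :=
  (tr.get (Nat.shiftRight d 37)).1 == Nat.beq pr 1 &&
    eck k K (octL 5 d) (octL (K - 4) (Nat.shiftRight d 15)) (octL (K + 1) (Nat.shiftRight d 18))
      (Nat.beq (Nat.mod (Nat.shiftRight d 36) 2) 1) cols (tr.get (Nat.shiftRight d 37)).2

theorem mck_sound (hx : Base x) {k : Cst} (hk : k.Ok K) {tr : Tr} {pr : ℕ} {cols : List ℕ}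
    {d : ℕ} (h : mck k K tr pr cols d = true) :
    rv x (Nat.beq pr 1) (Mf K (fE cols)) = vl K x tr (d >>> 37) := by
  unfold mck at h
  simp only [Bool.and_eq_true, beq_iff_eq] at h
  obtain ⟨h1, h2⟩ := h
  unfold vl
  have h3 : (tr.get (d >>> 37)).1 = Nat.beq pr 1 := h1
  rw [h3]
  exact eck_sound hx hk h2 _

/-- check of all graphs. -/
noncomputable def cvCk (k : Cst) (K : ℕ) (tr : Tr) (pr : E → ℕ) (cols : E → List ℕ)
    (es : List E) : List ℕ → Bool :=
  List.rec (motive := fun _ => List ℕ → Bool) (fun _ => true)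
    (fun e _ ih ds => List.rec (motive := fun _ => Bool) false
      (fun d ds' _ => and (mck k K tr (pr e) (cols e) d) (ih ds')) ds) es

/-- a large number from parts of `w` bits, least significant first (a literal with `10 ^ 5` digits
takes seconds to parse, a list of short ones does not). -/
def catL (w : ℕ) (l : List ℕ) : ℕ :=
  List.rec (motive := fun _ => ℕ) 0 (fun a _ ih => Nat.add a (Nat.shiftLeft ih w)) l

/-- accumulation of the packed sum. -/
def cvA (W : ℕ) (f : E → ℕ) (es : List E) : List ℕ → ℕ → ℕ → ℕ :=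
  List.rec (motive := fun _ => List ℕ → ℕ → ℕ → ℕ) (fun _ _ acc => acc)
    (fun e _ ih ds n acc => List.rec (motive := fun _ => ℕ) acc
      (fun d ds' _ => cond (Nat.beq (f e) 0) (ih ds' n acc)
        (force (Nat.succ n) fun n' => cond (Nat.beq (Nat.mod n 32) 0)
        (force (Nat.add acc (Nat.shiftLeft (f e) (Nat.mul W (Nat.shiftRight d 37))))
          fun a => ih ds' n' a)
        (ih ds' n' (Nat.add acc
          (Nat.shiftLeft (f e) (Nat.mul W (Nat.shiftRight d 37))))))) ds) es

/-- accumulation of the sum of coefficients. -/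
def cvM (f : E → ℕ) (es : List E) : ℕ → ℕ :=
  List.rec (motive := fun _ => ℕ → ℕ) (fun acc => acc)
    (fun e _ ih acc => force (Nat.add acc (f e)) fun a => ih a) es

/-- the value. -/
noncomputable def cvV (val : ℕ → ℝ) (f : E → ℕ) : List E → List ℕ → ℝ
  | e :: es, d :: ds => (f e : ℝ) * val (d >>> 37) + cvV val f es ds
  | _, _ => 0

theorem cvA_cons (W : ℕ) (f : E → ℕ) (e : E) (es : List E) (d : ℕ) (ds : List ℕ) (n acc : ℕ) :
    ∃ n', cvA W f (e :: es) (d :: ds) n acc
      = cvA W f es ds n' (acc + (f e) <<< (W * (d >>> 37))) := by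
  have e1 : cvA W f (e :: es) (d :: ds) n acc
      = cond (Nat.beq (f e) 0) (cvA W f es ds n acc)
        (force (Nat.succ n) fun n' => cond (Nat.beq (Nat.mod n 32) 0)
        (force (Nat.add acc (Nat.shiftLeft (f e) (Nat.mul W (Nat.shiftRight d 37))))
          fun a => cvA W f es ds n' a)
        (cvA W f es ds n' (Nat.add acc
          (Nat.shiftLeft (f e) (Nat.mul W (Nat.shiftRight d 37)))))) := rfl
  rcases h0 : Nat.beq (f e) 0 with _ | _
  · refine ⟨n + 1, ?_⟩
    rw [e1, h0, cond_false]
    simp only [force_eq]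
    cases Nat.beq (Nat.mod n 32) 0 <;> rfl
  · refine ⟨n, ?_⟩
    have h1 : f e = 0 := Nat.eq_of_beq_eq_true h0
    rw [e1, h0, cond_true, h1, Nat.zero_shiftLeft, add_zero]

theorem cvM_cons (f : E → ℕ) (e : E) (es : List E) (acc : ℕ) :
    cvM f (e :: es) acc = cvM f es (acc + f e) := by
  have e1 : cvM f (e :: es) acc = (force (Nat.add acc (f e)) fun a => cvM f es a) := rfl
  rw [e1, force_eq]; rfl

theorem cvA_spec (f : E → ℕ) (es : List E) (ds : List ℕ) (n acc M : ℕ) (v : ℝ)
    (h : NRep W val acc M v) (hl : es.length ≤ ds.length) :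
    NRep W val (cvA W f es ds n acc) (cvM f es M) (v + cvV val f es ds) := by
  induction es generalizing ds n acc M v with
  | nil => simpa [cvA, cvM, cvV] using h
  | cons e es ih =>
    cases ds with
    | nil => simp at hl
    | cons d ds =>
      obtain ⟨n', hn'⟩ := cvA_cons W f e es d ds n acc
      rw [hn', cvM_cons]
      have h2 := h.add (NRep.single (W := W) (val := val) (f e) (d >>> 37))
      have h3 := ih ds n' _ _ _ h2 (by simpa using hl)
      have e2 : v + cvV val f (e :: es) (d :: ds)
          = v + (f e : ℝ) * val (d >>> 37) + cvV val f es ds := by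
        have e3 : cvV val f (e :: es) (d :: ds)
          = (f e : ℝ) * val (d >>> 37) + cvV val f es ds := rfl
        rw [e3]; ring
      rw [e2]
      exact h3

/-- **Conversion of a relation.** -/
theorem relPack_chunk (hx : Base x) {k : Cst} (hk : k.Ok K) {tr : Tr} (cp cn pr : E → ℕ)
    (cols : E → List ℕ) {es : List E} {ds : List ℕ} {P Q M : ℕ}
    (hrel : (es.map fun e => ((cp e : ℝ) - cn e) *
      rv x (Nat.beq (pr e) 1) (Mf K (fE (cols e)))).sum = 0)
    (hck : cvCk k K tr pr cols es ds = true)
    (hP : Nat.beq (cvA W cp es ds 0 0) P = true) (hQ : Nat.beq (cvA W cn es ds 0 0) Q = true)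
    (hM : Nat.ble (cvM cp es 0) M = true) (hM' : Nat.ble (cvM cn es 0) M = true) :
    RelPack W (vl K x tr) P Q M := by
  have hP := Nat.eq_of_beq_eq_true hP
  have hQ := Nat.eq_of_beq_eq_true hQ
  have hM := Nat.le_of_ble_eq_true hM
  have hM' := Nat.le_of_ble_eq_true hM'
  have key : ∀ (es : List E) (ds : List ℕ), cvCk k K tr pr cols es ds = true →
      es.length ≤ ds.length ∧ (es.map fun e => ((cp e : ℝ) - cn e) *
      rv x (Nat.beq (pr e) 1) (Mf K (fE (cols e)))).sum
      = cvV (vl K x tr) cp es ds - cvV (vl K x tr) cn es ds := by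
    clear hrel hck hP hQ hM
    intro es ds hck
    induction es generalizing ds with
    | nil => simp [cvV]
    | cons e es ih =>
      cases ds with
      | nil => exact absurd hck (by simp [cvCk])
      | cons d ds =>
        have e1 : cvCk k K tr pr cols (e :: es) (d :: ds)
            = (mck k K tr (pr e) (cols e) d && cvCk k K tr pr cols es ds) := rfl
        rw [e1, Bool.and_eq_true] at hck
        obtain ⟨h1, h2⟩ := ih ds hck.2
        refine ⟨by simpa using h1, ?_⟩
        rw [List.map_cons, List.sum_cons, h2, mck_sound hx hk hck.1]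
        have e2 : ∀ f : E → ℕ, cvV (vl K x tr) f (e :: es) (d :: ds)
          = (f e : ℝ) * vl K x tr (d >>> 37) + cvV (vl K x tr) f es ds := fun f => rfl
        rw [e2, e2]; ring
  obtain ⟨hl, hsum⟩ := key es ds hck
  rw [hsum] at hrel
  have r1 := cvA_spec (W := W) (val := vl K x tr) cp es ds 0 0 0 0 NRep.zero hl
  have r2 := cvA_spec (W := W) (val := vl K x tr) cn es ds 0 0 0 0 NRep.zero hl
  rw [hP, zero_add] at r1
  rw [hQ, zero_add] at r2
  have heq : cvV (vl K x tr) cp es ds = cvV (vl K x tr) cn es ds := by linarith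
  rw [← heq] at r2
  exact ⟨_, r1.mono hM, r2.mono hM'⟩

end Vale.Agent.P355.H138
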