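import Vale.Agent.P355.H790.RProj

/-! Three complement legs: for `n` mutually unbiased bases of `ℂ⁶` the antisymmetric part of the
trilinear form `tr (X Y Z)` on the complement of the diagonal algebras has nonnegative norm; for
five bases this says that the sum of the squared triple products is nonnegative. -/

namespace Vale.Agent.P355.H138

open Finset Matrix Vale.Agent.P355 Vale.Agent.P355.H349

/-- pairs of indices. -/
abbrev II : Type := Fin 6 × Fin 6

variable {n : ℕ} {B : Fin n → M6}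

/-- the projection on a vector, as a vector. -/
def ph (B : Fin n → M6) (v : Fin n × Fin 6) (x : II) : ℂ := vec B v x.1 * star (vec B v x.2)

/-- the tensor square of a vector. -/
def ps (B : Fin n → M6) (v : Fin n × Fin 6) (x : II) : ℂ := vec B v x.1 * vec B v x.2

/-- the identity, as a vector. -/
def ta (x : II) : ℂ := dl x.1 x.2

theorem star_ta (x : II) : star (ta x) = ta x := star_dl _ _

/-! ### Scalar products -/

/-- squared modulus of a scalar product. -/
def gg (B : Fin n → M6) (u v : Fin n × Fin 6) : ℂ := ip B u v * ip B v u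

theorem ph_ph (u w : Fin n × Fin 6) : ∑ x : II, star (ph B u x) * ph B w x = gg B u w :=
  H790.hs_uu u w

theorem ta_ph (hB : IsMUBs B) (u : Fin n × Fin 6) : ∑ x : II, ta x * ph B u x = 1 := by
  have h := congrArg star (H790.hs_diag hB u)
  rw [star_sum, star_one] at h
  rw [← h]
  refine Finset.sum_congr rfl fun x _ => ?_
  rw [star_mul', star_star, star_dl, mul_comm]; rfl

theorem ta_ta : ∑ x : II, ta x * ta x = 6 := by
  unfold ta
  rw [Fintype.sum_prod_type]
  simp [sum_dl, dl_self]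

theorem sum_ph (hB : IsMUBs B) (j : Fin n) (x : II) : ∑ b, ph B (j, b) x = ta x := by
  have h : ∑ a, (vec B (j, a) x.1 * star (vec B (j, a) x.2)) = dl x.1 x.2 :=
    unitary_rows (hB.1 j) x.1 x.2
  exact h

theorem ps_ps (u w : Fin n × Fin 6) : ∑ x : II, star (ps B u x) * ps B w x = ip B u w ^ 2 := by
  rw [Fintype.sum_prod_type, sq]
  unfold ip ps
  rw [Finset.sum_mul_sum]
  refine Finset.sum_congr rfl fun r _ => Finset.sum_congr rfl fun s _ => ?_
  simp only [star_mul']
  ring

theorem gg_symm (u v : Fin n × Fin 6) : gg B u v = gg B v u := by unfold gg; ring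

/-- sums against `gg`. -/
theorem sum_gg (hB : IsMUBs B) (v : Fin n × Fin 6) (F : Fin n × Fin 6 → ℂ) :
    ∑ w, gg B v w * F w = F v + 1 / 6 * (∑ w, F w - ∑ b, F (v.1, b)) := by
  have h1 : ∀ j : Fin n, ∑ b, gg B v (j, b) * F (j, b)
      = 1 / 6 * ∑ b, F (j, b) + if j = v.1 then F v - 1 / 6 * ∑ b, F (v.1, b) else 0 := by
    intro j
    by_cases hj : j = v.1
    · subst hj
      rw [if_pos rfl]
      have h2 : ∀ b, gg B v (v.1, b) * F (v.1, b) = dl v.2 b * F (v.1, b) := by
        intro b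
        have e1 : ip B v (v.1, b) = dl v.2 b := ip_same hB v.1 v.2 b
        have e2 : ip B (v.1, b) v = dl b v.2 := ip_same hB v.1 b v.2
        unfold gg
        rw [e1, e2, dl_symm b v.2, dl_sq]
      simp only [h2, sum_dl]
      ring
    · rw [if_neg hj, add_zero, Finset.mul_sum]
      refine Finset.sum_congr rfl fun b _ => ?_
      have h3 : gg B v (j, b) = 1 / 6 := ip_mul hB (u := v) (v := (j, b)) (fun h => hj h.symm)
      rw [h3]
  rw [Fintype.sum_prod_type, Fintype.sum_prod_type]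
  simp only [h1, Finset.sum_add_distrib, Finset.sum_ite_eq', Finset.mem_univ, if_true,
    ← Finset.mul_sum]
  ring

theorem gg_self (hB : IsMUBs B) (v : Fin n × Fin 6) : gg B v v = 1 := by
  have e1 : ip B v v = dl v.2 v.2 := ip_same hB v.1 v.2 v.2
  unfold gg
  rw [e1, dl_self, one_mul]

theorem sum_gg_basis (hB : IsMUBs B) (v : Fin n × Fin 6) (j : Fin n) : ∑ b, gg B v (j, b) = 1 := by
  unfold gg
  rw [ip_complete hB j v v]
  have e1 : ip B v v = dl v.2 v.2 := ip_same hB v.1 v.2 v.2
  rw [e1, dl_self]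

theorem sum_gg_all (hB : IsMUBs B) (v : Fin n × Fin 6) : ∑ w, gg B v w = n := by
  rw [Fintype.sum_prod_type]
  simp [sum_gg_basis hB v]

theorem sum_gg_sq (hB : IsMUBs B) (v : Fin n × Fin 6) :
    ∑ w, gg B v w * gg B v w = 1 + ((n : ℂ) - 1) / 6 := by
  rw [sum_gg hB v, gg_self hB, sum_gg_all hB, sum_gg_basis hB]
  ring

/-! ### Matrices -/

/-- `|1⟩⟨1|` -/
def mT : Matrix II II ℂ := Matrix.of fun x y => ta x * ta y
/-- `∑_v |v⟩⟨v|` for the projections. -/
def mPh (B : Fin n → M6) : Matrix II II ℂ := Matrix.of fun x y => ∑ v, ph B v x * star (ph B v y)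
/-- `∑_v |v⟩⟨v|` for the tensor squares. -/
def mPs (B : Fin n → M6) : Matrix II II ℂ := Matrix.of fun x y => ∑ v, ps B v x * star (ps B v y)
/-- the flip. -/
def mSW : Matrix II II ℂ := Matrix.of fun x y => dl x.1 y.2 * dl x.2 y.1

theorem mT_mT : mT * mT = (6 : ℂ) • mT := by
  ext x y
  simp only [mT, Matrix.mul_apply, Matrix.of_apply, Matrix.smul_apply, smul_eq_mul]
  have : ∀ z, ta x * ta z * (ta z * ta y) = ta x * ta y * (ta z * ta z) := fun z => by ring
  simp only [this, ← Finset.mul_sum, ta_ta]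
  ring

theorem mT_mPh (hB : IsMUBs B) : mT * mPh B = (n : ℂ) • mT := by
  ext x y
  simp only [mT, mPh, Matrix.mul_apply, Matrix.of_apply, Matrix.smul_apply, smul_eq_mul,
    Finset.mul_sum]
  rw [Finset.sum_comm]
  have h1 : ∀ v : Fin n × Fin 6, ∑ z, ta x * ta z * (ph B v z * star (ph B v y))
      = ta x * star (ph B v y) := by
    intro v
    have : ∀ z, ta x * ta z * (ph B v z * star (ph B v y))
        = ta x * star (ph B v y) * (ta z * ph B v z) := fun z => by ring
    simp only [this, ← Finset.mul_sum, ta_ph hB, mul_one]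
  simp only [h1]
  rw [Fintype.sum_prod_type]
  have h2 : ∀ j : Fin n, ∑ b, ta x * star (ph B (j, b) y) = ta x * ta y := by
    intro j
    rw [← Finset.mul_sum, ← star_sum, sum_ph hB, star_ta]
  simp only [h2]
  simp

theorem mPh_mT (hB : IsMUBs B) : mPh B * mT = (n : ℂ) • mT := by
  ext x y
  simp only [mT, mPh, Matrix.mul_apply, Matrix.of_apply, Matrix.smul_apply, smul_eq_mul,
    Finset.sum_mul]
  rw [Finset.sum_comm]
  have h1 : ∀ v : Fin n × Fin 6, ∑ z, ph B v x * star (ph B v z) * (ta z * ta y)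
      = ph B v x * ta y := by
    intro v
    have h3 : ∑ z, star (ph B v z) * ta z = 1 := by
      have h := congrArg star (ta_ph hB v)
      rw [star_sum, star_one] at h
      rw [← h]
      exact Finset.sum_congr rfl fun z _ => by rw [star_mul', star_ta]; ring
    have : ∀ z, ph B v x * star (ph B v z) * (ta z * ta y)
        = ph B v x * ta y * (star (ph B v z) * ta z) := fun z => by ring
    simp only [this, ← Finset.mul_sum, h3, mul_one]
  simp only [h1]
  rw [Fintype.sum_prod_type]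
  have h2 : ∀ j : Fin n, ∑ b, ph B (j, b) x * ta y = ta x * ta y := by
    intro j
    rw [← Finset.sum_mul, sum_ph hB]
  simp only [h2]
  simp

theorem mPh_mPh (hB : IsMUBs B) :
    mPh B * mPh B = mPh B + ((n : ℂ) * ((n : ℂ) - 1) / 6) • mT := by
  ext x y
  simp only [mT, mPh, Matrix.mul_apply, Matrix.of_apply, Matrix.smul_apply, smul_eq_mul,
    Matrix.add_apply]
  have h1 : ∀ z, (∑ v, ph B v x * star (ph B v z)) * ∑ w, ph B w z * star (ph B w y)
      = ∑ v, ∑ w, ph B v x * star (ph B w y) * (star (ph B v z) * ph B w z) := by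
    intro z
    rw [Finset.sum_mul_sum]
    exact Finset.sum_congr rfl fun v _ => Finset.sum_congr rfl fun w _ => by ring
  simp only [h1]
  rw [Finset.sum_comm]
  have h2 : ∀ v : Fin n × Fin 6, ∑ z, ∑ w, ph B v x * star (ph B w y) * (star (ph B v z) * ph B w z)
      = ph B v x * star (ph B v y) + ((n : ℂ) - 1) / 6 * (ph B v x * ta y) := by
    intro v
    rw [Finset.sum_comm]
    simp only [← Finset.mul_sum, ph_ph]
    have h3 : ∀ w, ph B v x * star (ph B w y) * gg B v w
        = ph B v x * (gg B v w * star (ph B w y)) := fun w => by ring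
    simp only [h3, ← Finset.mul_sum]
    rw [sum_gg hB v fun w => star (ph B w y)]
    have h4 : ∑ w : Fin n × Fin 6, star (ph B w y) = n * ta y := by
      rw [Fintype.sum_prod_type]
      have : ∀ j : Fin n, ∑ b, star (ph B (j, b) y) = ta y := fun j => by
        rw [← star_sum, sum_ph hB, star_ta]
      rw [Finset.sum_congr rfl fun j _ => this j]
      simp
    have h5 : ∑ b, star (ph B (v.1, b) y) = ta y := by
      rw [← star_sum, sum_ph hB, star_ta]
    rw [h4, h5]
    ring
  simp only [h2, Finset.sum_add_distrib, ← Finset.mul_sum, ← Finset.sum_mul]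
  congr 1
  have h6 : ∑ v : Fin n × Fin 6, ph B v x = n * ta x := by
    rw [Fintype.sum_prod_type]
    simp [sum_ph hB]
  rw [h6]
  ring

theorem mSW_mSW : mSW * mSW = 1 := by
  ext x y
  simp only [mSW, Matrix.mul_apply, Matrix.of_apply]
  rw [Fintype.sum_prod_type]
  have h : ∀ r s, dl x.1 (r, s).2 * dl x.2 (r, s).1 * (dl (r, s).1 y.2 * dl (r, s).2 y.1)
      = dl x.2 r * (dl x.1 s * (dl r y.2 * dl s y.1)) := fun r s => by ring
  simp only [h, ← Finset.mul_sum, sum_dl]
  rw [Matrix.one_apply]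
  unfold dl
  by_cases h1 : x.1 = y.1 <;> by_cases h2 : x.2 = y.2 <;> simp [h1, h2, Prod.ext_iff]

theorem mSW_mPs : mSW * mPs B = mPs B := by
  ext x y
  simp only [mSW, mPs, Matrix.mul_apply, Matrix.of_apply]
  rw [Fintype.sum_prod_type]
  have h : ∀ r s, dl x.1 (r, s).2 * dl x.2 (r, s).1 * ∑ v, ps B v (r, s) * star (ps B v y)
      = dl x.2 r * (dl x.1 s * ∑ v, ps B v (r, s) * star (ps B v y)) := fun r s => by ring
  simp only [h, ← Finset.mul_sum, sum_dl]
  refine Finset.sum_congr rfl fun v _ => ?_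
  unfold ps; ring

theorem mPs_mSW : mPs B * mSW = mPs B := by
  ext x y
  simp only [mSW, mPs, Matrix.mul_apply, Matrix.of_apply]
  rw [Fintype.sum_prod_type]
  have h : ∀ r s, (∑ v, ps B v x * star (ps B v (r, s))) * (dl (r, s).1 y.2 * dl (r, s).2 y.1)
      = dl r y.2 * (dl s y.1 * ∑ v, ps B v x * star (ps B v (r, s))) := fun r s => by ring
  simp only [h, ← Finset.mul_sum, sum_dl2]
  refine Finset.sum_congr rfl fun v _ => ?_
  unfold ps
  simp only [star_mul']
  ring

/-! ### Traces -/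

theorem tr_mT : mT.trace = 6 := by
  unfold Matrix.trace mT
  simpa using ta_ta

theorem tr_mPh (hB : IsMUBs B) : (mPh B).trace = 6 * n := by
  unfold Matrix.trace mPh
  simp only [Matrix.diag_apply, Matrix.of_apply]
  rw [Finset.sum_comm]
  have h : ∀ v : Fin n × Fin 6, ∑ x, ph B v x * star (ph B v x) = 1 := by
    intro v
    rw [← gg_self hB v, ← ph_ph]
    exact Finset.sum_congr rfl fun x _ => by ring
  simp only [h]
  simp [mul_comm]

theorem tr_one : (1 : Matrix II II ℂ).trace = 36 := by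
  rw [Matrix.trace_one]; simp

theorem tr_mSW : mSW.trace = 6 := by
  unfold Matrix.trace mSW
  simp only [Matrix.diag_apply, Matrix.of_apply]
  rw [Fintype.sum_prod_type]
  simp only [sum_dl, dl_self]
  simp

theorem tr_mPs (hB : IsMUBs B) : (mPs B).trace = 6 * n := by
  unfold Matrix.trace mPs
  simp only [Matrix.diag_apply, Matrix.of_apply]
  rw [Finset.sum_comm]
  have h : ∀ v : Fin n × Fin 6, ∑ x, ps B v x * star (ps B v x) = 1 := by
    intro v
    have e : ip B v v = 1 := by
      have e1 : ip B v v = dl v.2 v.2 := ip_same hB v.1 v.2 v.2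
      rw [e1, dl_self]
    have := ps_ps (B := B) v v
    rw [e, one_pow] at this
    rw [← this]
    exact Finset.sum_congr rfl fun x _ => by ring
  simp only [h]
  simp [mul_comm]

theorem mPs_mPs (x y : II) : (mPs B * mPs B) x y
    = ∑ v, ∑ w, ip B v w ^ 2 * (ps B v x * star (ps B w y)) := by
  simp only [mPs, Matrix.mul_apply, Matrix.of_apply]
  have h1 : ∀ z, (∑ v, ps B v x * star (ps B v z)) * ∑ w, ps B w z * star (ps B w y)
      = ∑ v, ∑ w, ps B v x * star (ps B w y) * (star (ps B v z) * ps B w z) := by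
    intro z
    rw [Finset.sum_mul_sum]
    exact Finset.sum_congr rfl fun v _ => Finset.sum_congr rfl fun w _ => by ring
  simp only [h1]
  rw [Finset.sum_comm]
  refine Finset.sum_congr rfl fun v _ => ?_
  rw [Finset.sum_comm]
  refine Finset.sum_congr rfl fun w _ => ?_
  rw [← Finset.mul_sum, ps_ps]; ring

theorem tr_mPs2 (hB : IsMUBs B) : (mPs B * mPs B).trace = 6 * n * (1 + ((n : ℂ) - 1) / 6) := by
  unfold Matrix.trace
  simp only [Matrix.diag_apply, mPs_mPs]
  rw [Finset.sum_comm]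
  have h : ∀ v : Fin n × Fin 6, ∑ x, ∑ w, ip B v w ^ 2 * (ps B v x * star (ps B w x))
      = 1 + ((n : ℂ) - 1) / 6 := by
    intro v
    rw [Finset.sum_comm, ← sum_gg_sq hB v]
    refine Finset.sum_congr rfl fun w _ => ?_
    rw [← Finset.mul_sum]
    have : ∑ x, ps B v x * star (ps B w x) = ip B w v ^ 2 := by
      rw [← ps_ps]
      exact Finset.sum_congr rfl fun x _ => by ring
    rw [this]
    unfold gg; ring
  simp only [h]
  simp
  ring

/-- the sum of the squared triple products over all triples of vectors. -/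
noncomputable def Th (B : Fin n → M6) : ℂ :=
  ∑ u : Fin n × Fin 6, ∑ v : Fin n × Fin 6, ∑ w : Fin n × Fin 6,
    (ip B u v * ip B v w * ip B w u) ^ 2

theorem tr_mPs3 : (mPs B * mPs B * mPs B).trace = Th B := by
  unfold Matrix.trace Th
  simp only [Matrix.diag_apply]
  have h0 : ∀ x, (mPs B * mPs B * mPs B) x x
      = ∑ u, ∑ v, ∑ w, ip B u v ^ 2 * (ps B u x * star (ps B w x)) * ip B v w ^ 2 := by
    intro x
    rw [Matrix.mul_apply]
    have h1 : ∀ z, (mPs B * mPs B) x z * mPs B z x
        = ∑ u, ∑ v, ∑ w, ip B u v ^ 2 * (ps B u x * star (ps B w x))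
          * (star (ps B v z) * ps B w z) := by
      intro z
      rw [mPs_mPs]
      have e : mPs B z x = ∑ w, ps B w z * star (ps B w x) := rfl
      rw [e, Finset.sum_mul]
      refine Finset.sum_congr rfl fun u _ => ?_
      rw [Finset.sum_mul_sum]
      exact Finset.sum_congr rfl fun v _ => Finset.sum_congr rfl fun w _ => by ring
    simp only [h1]
    rw [Finset.sum_comm]
    refine Finset.sum_congr rfl fun u _ => ?_
    rw [Finset.sum_comm]
    refine Finset.sum_congr rfl fun v _ => ?_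
    rw [Finset.sum_comm]
    refine Finset.sum_congr rfl fun w _ => ?_
    rw [← Finset.mul_sum, ps_ps]
  simp only [h0]
  rw [Finset.sum_comm]
  refine Finset.sum_congr rfl fun u _ => ?_
  rw [Finset.sum_comm]
  refine Finset.sum_congr rfl fun v _ => ?_
  rw [Finset.sum_comm]
  refine Finset.sum_congr rfl fun w _ => ?_
  have : ∑ x, ps B u x * star (ps B w x) = ip B w u ^ 2 := by
    rw [← ps_ps]
    exact Finset.sum_congr rfl fun x _ => by ring
  rw [← Finset.sum_mul, ← Finset.mul_sum, this]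
  ring

/-! ### The complement projection -/

/-- `(n - 1) / 6` -/
noncomputable def cc (n : ℕ) : ℂ := ((n : ℂ) - 1) / 6

/-- the projection on the complement. -/
noncomputable def mP (B : Fin n → M6) : Matrix II II ℂ := 1 - mPh B + cc n • mT

theorem mP_mP (hB : IsMUBs B) : mP B * mP B = mP B := by
  unfold mP
  simp only [mul_add, add_mul, mul_sub, sub_mul, Matrix.mul_smul, Matrix.smul_mul, one_mul, mul_one,
    mPh_mPh hB, mT_mPh hB, mPh_mT hB, mT_mT, smul_smul, smul_sub, smul_add]
  have e : ∀ (x y : II), (1 - mPh B - (mPh B - (mPh B + ((n : ℂ) * ((n : ℂ) - 1) / 6) • mT))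
      + (cc n • mT - (cc n * n) • mT) + (cc n • mT - (cc n * n) • mT + (cc n * (cc n * 6)) • mT)) x y
      = (1 - mPh B + cc n • mT) x y := by
    intro x y
    simp only [Matrix.add_apply, Matrix.sub_apply, Matrix.smul_apply, smul_eq_mul]
    unfold cc
    ring
  ext x y
  have := e x y
  simp only [Matrix.add_apply, Matrix.sub_apply, Matrix.smul_apply, smul_eq_mul] at this ⊢
  unfold cc at this ⊢
  linear_combination this

theorem star_mP (x y : II) : star (mP B x y) = mP B y x := by
  unfold mP mPh mT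
  simp only [Matrix.add_apply, Matrix.sub_apply, Matrix.smul_apply, smul_eq_mul, Matrix.of_apply,
    star_add, star_sub, star_mul', star_sum, star_star, star_ta, Matrix.one_apply]
  have h1 : star (cc n) = cc n := by unfold cc; simp
  have h2 : star (if x = y then (1 : ℂ) else 0) = if y = x then 1 else 0 := by
    by_cases h : x = y
    · simp [h]
    · simp [h, Ne.symm h]
  rw [h1, h2]
  have h3 : ∀ v, star (ph B v x) * ph B v y = ph B v y * star (ph B v x) := fun v => by ring
  simp only [h3]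
  ring

theorem mP_contr (hB : IsMUBs B) (x y : II) : ∑ z, star (mP B z x) * mP B z y = mP B x y := by
  have h := congrFun (congrFun (mP_mP hB) x) y
  rw [Matrix.mul_apply] at h
  rw [← h]
  exact Finset.sum_congr rfl fun z _ => by rw [star_mP]

/-- `Γ` -/
noncomputable def mG (B : Fin n → M6) : Matrix II II ℂ :=
  Matrix.of fun x y => mP B (x.1, y.1) (x.2, y.2)

/-- `M` -/
noncomputable def mM (B : Fin n → M6) : Matrix II II ℂ :=
  Matrix.of fun x y => mP B (x.1, y.1) (y.2, x.2)

theorem one_dl (x y : II) : (1 : Matrix II II ℂ) x y = dl x.1 y.1 * dl x.2 y.2 := by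
  rw [Matrix.one_apply]
  unfold dl
  by_cases h1 : x.1 = y.1 <;> by_cases h2 : x.2 = y.2 <;> simp [h1, h2, Prod.ext_iff]

theorem mG_eq : mG B = mT - mPh B + cc n • (1 : Matrix II II ℂ) := by
  ext x y
  unfold mG mP
  simp only [Matrix.of_apply, Matrix.add_apply, Matrix.sub_apply, Matrix.smul_apply, smul_eq_mul,
    one_dl, mPh, mT, ta, ph]
  have h : ∀ v, vec B v x.1 * star (vec B v y.1) * star (vec B v x.2 * star (vec B v y.2))
      = vec B v x.1 * star (vec B v x.2) * star (vec B v y.1 * star (vec B v y.2)) := fun v => by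
    simp only [star_mul', star_star]; ring
  simp only [h]

theorem mM_eq : mM B = mSW - mPs B + cc n • (1 : Matrix II II ℂ) := by
  ext x y
  unfold mM mP
  simp only [Matrix.of_apply, Matrix.add_apply, Matrix.sub_apply, Matrix.smul_apply, smul_eq_mul,
    one_dl, mPh, mT, ta, ph, mPs, ps, mSW]
  have h : ∀ v, vec B v x.1 * star (vec B v y.1) * star (vec B v y.2 * star (vec B v x.2))
      = vec B v x.1 * vec B v x.2 * star (vec B v y.1 * vec B v y.2) := fun v => by
    simp only [star_mul', star_star]; ring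
  simp only [h]
  rw [dl_symm y.1 x.2, dl_symm y.2 x.2]

/-- `tr Γ³` -/
theorem tr_mG3 (hB : IsMUBs B) : (mG B * mG B * mG B).trace
    = (6 - 2 * n + n * ((n : ℂ) - 1) / 6 + 2 * cc n) * (6 - n + cc n) * 6
      + (1 - 2 * cc n) * ((n - n * ((n : ℂ) - 1) / 6) * 6 + (cc n - 1) * (6 * n))
      + cc n ^ 2 * (6 - 6 * n + 36 * cc n) := by
  have h2 : mG B * mG B = (6 - 2 * n + n * ((n : ℂ) - 1) / 6 + 2 * cc n) • mT
      + (1 - 2 * cc n) • mPh B + (cc n ^ 2) • (1 : Matrix II II ℂ) := by
    rw [mG_eq]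
    simp only [mul_add, add_mul, mul_sub, sub_mul, Matrix.mul_smul, Matrix.smul_mul, one_mul,
      mul_one, mPh_mPh hB, mT_mPh hB, mPh_mT hB, mT_mT, smul_smul, smul_sub, smul_add]
    ext x y
    simp only [Matrix.add_apply, Matrix.sub_apply, Matrix.smul_apply, smul_eq_mul]
    ring
  have h3 : mG B * mG B * mG B
      = ((6 - 2 * n + n * ((n : ℂ) - 1) / 6 + 2 * cc n) * (6 - n + cc n)
          + (1 - 2 * cc n) * (n - n * ((n : ℂ) - 1) / 6) + cc n ^ 2) • mT
        + ((1 - 2 * cc n) * (cc n - 1) - cc n ^ 2) • mPh B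
        + (cc n ^ 3) • (1 : Matrix II II ℂ) := by
    rw [h2, mG_eq]
    simp only [mul_add, add_mul, mul_sub, sub_mul, Matrix.mul_smul, Matrix.smul_mul, one_mul,
      mul_one, mPh_mPh hB, mT_mPh hB, mPh_mT hB, mT_mT, smul_smul, smul_sub, smul_add]
    ext x y
    simp only [Matrix.add_apply, Matrix.sub_apply, Matrix.smul_apply, smul_eq_mul]
    ring
  rw [h3]
  simp only [Matrix.trace_add, Matrix.trace_smul, tr_mT, tr_mPh hB, tr_one, smul_eq_mul]
  ring

/-- `tr M³` -/
theorem tr_mM3 (hB : IsMUBs B) : (mM B * mM B * mM B).trace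
    = 6 * (1 + 3 * cc n ^ 2) + 36 * (3 * cc n + cc n ^ 3) - 18 * (1 + cc n) ^ 2 * n
      + 18 * (1 + cc n) * n * (1 + ((n : ℂ) - 1) / 6) - Th B := by
  have h3 : mM B * mM B * mM B = (1 + 3 * cc n ^ 2) • mSW + (3 * cc n + cc n ^ 3) • (1 : Matrix II II ℂ)
      - (3 * (1 + cc n) ^ 2) • mPs B + (3 * (1 + cc n)) • (mPs B * mPs B)
      - mPs B * mPs B * mPs B := by
    rw [mM_eq]
    simp only [mul_add, add_mul, mul_sub, sub_mul, Matrix.mul_smul, Matrix.smul_mul, one_mul,
      mul_one, smul_smul, smul_sub, smul_add, mSW_mSW, mSW_mPs, mPs_mSW, Matrix.mul_assoc]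
    ext x y
    simp only [Matrix.add_apply, Matrix.sub_apply, Matrix.smul_apply, smul_eq_mul]
    ring
  rw [h3]
  simp only [Matrix.trace_add, Matrix.trace_sub, Matrix.trace_smul, tr_mSW, tr_one, tr_mPs hB,
    tr_mPs2 hB, tr_mPs3, smul_eq_mul]
  ring

/-! ### Positivity -/

/-- triples of indices. -/
abbrev TT : Type := Fin 6 × Fin 6 × Fin 6

/-- first pair. -/
def ea (t : TT) : II := (t.1, t.2.1)
/-- second pair. -/
def eb (t : TT) : II := (t.2.1, t.2.2)
/-- third pair. -/
def ec (t : TT) : II := (t.2.2, t.1)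

/-- product of three entries of the projection. -/
noncomputable def pr3 (B : Fin n → M6) (a b c : II) (z : II × II × II) : ℂ :=
  mP B z.1 a * (mP B z.2.1 b * mP B z.2.2 c)

theorem pr3_ip (hB : IsMUBs B) (a b c a' b' c' : II) :
    ∑ z, star (pr3 B a b c z) * pr3 B a' b' c' z = mP B a a' * (mP B b b' * mP B c c') := by
  rw [← mP_contr hB a a', ← mP_contr hB b b', ← mP_contr hB c c', Finset.sum_mul_sum,
    Finset.sum_mul_sum]
  simp only [Fintype.sum_prod_type (f := fun z : II × II × II =>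
    star (pr3 B a b c z) * pr3 B a' b' c' z)]
  refine Finset.sum_congr rfl fun z1 _ => ?_
  rw [Fintype.sum_prod_type]
  refine Finset.sum_congr rfl fun z2 _ => ?_
  rw [Finset.mul_sum]
  refine Finset.sum_congr rfl fun z3 _ => ?_
  unfold pr3
  simp only [star_mul']
  ring

/-- the antisymmetrised trace tensor, projected. -/
noncomputable def wz (B : Fin n → M6) (z : II × II × II) : ℂ :=
  ∑ t : TT, (pr3 B (ea t) (eb t) (ec t) z - pr3 B (ea t) (ec t) (eb t) z)

theorem wz_sq (hB : IsMUBs B) : ∑ z, star (wz B z) * wz B z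
    = 2 * ((∑ t : TT, ∑ t' : TT, mP B (ea t) (ea t') * (mP B (eb t) (eb t') * mP B (ec t) (ec t')))
      - ∑ t : TT, ∑ t' : TT, mP B (ea t) (ea t') * (mP B (eb t) (ec t') * mP B (ec t) (eb t'))) := by
  have h1 : ∀ z, star (wz B z) * wz B z = ∑ t : TT, ∑ t' : TT,
      (star (pr3 B (ea t) (eb t) (ec t) z) * pr3 B (ea t') (eb t') (ec t') z
        - star (pr3 B (ea t) (eb t) (ec t) z) * pr3 B (ea t') (ec t') (eb t') z
        - star (pr3 B (ea t) (ec t) (eb t) z) * pr3 B (ea t') (eb t') (ec t') z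
        + star (pr3 B (ea t) (ec t) (eb t) z) * pr3 B (ea t') (ec t') (eb t') z) := by
    intro z
    unfold wz
    rw [star_sum, Finset.sum_mul_sum]
    refine Finset.sum_congr rfl fun t _ => Finset.sum_congr rfl fun t' _ => ?_
    rw [star_sub]; ring
  simp only [h1]
  rw [Finset.sum_comm, mul_sub, Finset.mul_sum, Finset.mul_sum, ← Finset.sum_sub_distrib]
  refine Finset.sum_congr rfl fun t _ => ?_
  rw [Finset.sum_comm, Finset.mul_sum, Finset.mul_sum, ← Finset.sum_sub_distrib]
  refine Finset.sum_congr rfl fun t' _ => ?_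
  rw [Finset.sum_add_distrib, Finset.sum_sub_distrib, Finset.sum_sub_distrib, pr3_ip hB, pr3_ip hB,
    pr3_ip hB, pr3_ip hB]
  ring

theorem sum3_rot (H : Fin 6 → Fin 6 → Fin 6 → ℂ) :
    ∑ q, ∑ r, ∑ p, H q r p = ∑ p, ∑ q, ∑ r, H q r p := by
  rw [Finset.sum_comm]
  conv_rhs => rw [Finset.sum_comm]
  rw [Finset.sum_comm]
  refine Finset.sum_congr rfl fun q _ => ?_
  rw [Finset.sum_comm]

theorem sum6 (F : Fin 6 → Fin 6 → Fin 6 → Fin 6 → Fin 6 → Fin 6 → ℂ) :
    ∑ p, ∑ q, ∑ r, ∑ p', ∑ q', ∑ r', F p q r p' q' r'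
      = ∑ p, ∑ p', ∑ r, ∑ r', ∑ q, ∑ q', F p q r p' q' r' := by
  refine Finset.sum_congr rfl fun p _ => ?_
  rw [sum3_rot fun q r p' => ∑ q', ∑ r', F p q r p' q' r']
  refine Finset.sum_congr rfl fun p' _ => ?_
  rw [Finset.sum_comm]
  refine Finset.sum_congr rfl fun r _ => ?_
  exact sum3_rot fun q q' r' => F p q r p' q' r'

theorem tr3 (A : Matrix II II ℂ) : (A * A * A).trace
    = ∑ x1, ∑ x2, ∑ z1, ∑ z2, ∑ y1, ∑ y2,
      A (x1, x2) (y1, y2) * A (y1, y2) (z1, z2) * A (z1, z2) (x1, x2) := by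
  unfold Matrix.trace
  simp only [Matrix.diag_apply, Matrix.mul_apply, Fintype.sum_prod_type, Finset.sum_mul]

theorem sum_K1 : ∑ t : TT, ∑ t' : TT,
    mP B (ea t) (ea t') * (mP B (eb t) (eb t') * mP B (ec t) (ec t'))
      = (mG B * mG B * mG B).trace := by
  rw [tr3]
  simp only [Fintype.sum_prod_type]
  rw [sum6 fun p q r p' q' r' => mP B (ea (p, q, r)) (ea (p', q', r')) *
    (mP B (eb (p, q, r)) (eb (p', q', r')) * mP B (ec (p, q, r)) (ec (p', q', r')))]
  refine Finset.sum_congr rfl fun p _ => Finset.sum_congr rfl fun p' _ =>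
    Finset.sum_congr rfl fun r _ => Finset.sum_congr rfl fun r' _ =>
    Finset.sum_congr rfl fun q _ => Finset.sum_congr rfl fun q' _ => ?_
  unfold mG ea eb ec
  simp only [Matrix.of_apply]
  ring

theorem sum_K2 : ∑ t : TT, ∑ t' : TT,
    mP B (ea t) (ea t') * (mP B (eb t) (ec t') * mP B (ec t) (eb t'))
      = (mM B * mM B * mM B).trace := by
  rw [tr3]
  simp only [Fintype.sum_prod_type]
  rw [sum6 fun p q r p' q' r' => mP B (ea (p, q, r)) (ea (p', q', r')) *
    (mP B (eb (p, q, r)) (ec (p', q', r')) * mP B (ec (p, q, r)) (eb (p', q', r')))]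
  refine Finset.sum_congr rfl fun p _ => ?_
  -- right side: `x = (p, q')`, `y = (q, p')`, `z = (r, r')`
  have h1 : ∀ G : Fin 6 → Fin 6 → Fin 6 → Fin 6 → Fin 6 → ℂ,
      ∑ p', ∑ r, ∑ r', ∑ q, ∑ q', G p' r r' q q' = ∑ q', ∑ r, ∑ r', ∑ q, ∑ p', G p' r r' q q' := by
    intro G
    have h2 : ∀ p', ∑ r, ∑ r', ∑ q, ∑ q', G p' r r' q q' = ∑ q', ∑ r, ∑ r', ∑ q, G p' r r' q q' := by
      intro p'
      have h3 : ∀ r, ∑ r', ∑ q, ∑ q', G p' r r' q q' = ∑ q', ∑ r', ∑ q, G p' r r' q q' := fun r =>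
        sum3_rot fun r' q q' => G p' r r' q q'
      simp only [h3]
      rw [Finset.sum_comm]
    simp only [h2]
    rw [Finset.sum_comm]
    refine Finset.sum_congr rfl fun q' _ => ?_
    rw [Finset.sum_comm]
    refine Finset.sum_congr rfl fun r _ => ?_
    rw [Finset.sum_comm]
    refine Finset.sum_congr rfl fun r' _ => ?_
    rw [Finset.sum_comm]
  rw [h1]
  refine Finset.sum_congr rfl fun q' _ =>
    Finset.sum_congr rfl fun r _ => Finset.sum_congr rfl fun r' _ =>
    Finset.sum_congr rfl fun q _ => Finset.sum_congr rfl fun p' _ => ?_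
  unfold mM ea eb ec
  simp only [Matrix.of_apply]
  ring

/-- **The inequality of the three complement legs** for `n` mutually unbiased bases of `ℂ⁶`. -/
theorem eee (hB : IsMUBs B) : 0 ≤ ((mG B * mG B * mG B).trace - (mM B * mM B * mM B).trace).re := by
  have h1 : 0 ≤ (∑ z, star (wz B z) * wz B z).re := by
    rw [Complex.re_sum]
    exact Finset.sum_nonneg fun z _ => H790.re_star_mul_self _
  rw [wz_sq hB, sum_K1, sum_K2] at h1
  have h2 : ∀ z : ℂ, (2 * z).re = 2 * z.re := fun z => by simp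
  rw [h2] at h1
  linarith

/-- five bases: the sum over all triples of vectors of the squared triple products is at least
`90`. -/
theorem Th_five {B : Fin 5 → M6} (hB : IsMUBs B) : 90 ≤ (Th B).re := by
  have h := eee hB
  rw [tr_mG3 hB, tr_mM3 hB] at h
  have e : (6 - 2 * ((5 : ℕ) : ℂ) + ((5 : ℕ) : ℂ) * (((5 : ℕ) : ℂ) - 1) / 6 + 2 * cc 5)
        * (6 - ((5 : ℕ) : ℂ) + cc 5) * 6
      + (1 - 2 * cc 5) * ((((5 : ℕ) : ℂ) - ((5 : ℕ) : ℂ) * (((5 : ℕ) : ℂ) - 1) / 6) * 6
        + (cc 5 - 1) * (6 * ((5 : ℕ) : ℂ)))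
      + cc 5 ^ 2 * (6 - 6 * ((5 : ℕ) : ℂ) + 36 * cc 5)
      - (6 * (1 + 3 * cc 5 ^ 2) + 36 * (3 * cc 5 + cc 5 ^ 3) - 18 * (1 + cc 5) ^ 2 * ((5 : ℕ) : ℂ)
      + 18 * (1 + cc 5) * ((5 : ℕ) : ℂ) * (1 + (((5 : ℕ) : ℂ) - 1) / 6) - Th B) = Th B - 90 := by
    unfold cc
    push_cast
    ring
  rw [e] at h
  simpa using h

/-! ### Triples in three different bases -/

/-- squared triple product. -/
noncomputable def tp (B : Fin n → M6) (u v w : Fin n × Fin 6) : ℂ :=
  (ip B u v * ip B v w * ip B w u) ^ 2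

/-- sum of the squared triple products over triples of vectors in three different bases. -/
noncomputable def Td (B : Fin n → M6) : ℂ :=
  ∑ u : Fin n × Fin 6, ∑ v : Fin n × Fin 6, ∑ w : Fin n × Fin 6,
    if u.1 ≠ v.1 ∧ v.1 ≠ w.1 ∧ w.1 ≠ u.1 then tp B u v w else 0

theorem tp_rot (u v w : Fin n × Fin 6) : tp B u v w = tp B v w u := by unfold tp; ring

theorem sum_eq1 (hB : IsMUBs B) (u w : Fin n × Fin 6) :
    (∑ v : Fin n × Fin 6, if u.1 = v.1 then tp B u v w else 0) = gg B u w * gg B u w := by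
  rw [Fintype.sum_prod_type]
  have h1 : ∀ j : Fin n, (∑ b, if u.1 = (j, b).1 then tp B u (j, b) w else 0)
      = if u.1 = j then ∑ b, tp B u (j, b) w else 0 := by
    intro j
    by_cases h : u.1 = j
    · simp [h]
    · simp [h]
  simp only [h1, Finset.sum_ite_eq, Finset.mem_univ, if_true]
  have h2 : ∀ b, tp B u (u.1, b) w = dl u.2 b * tp B u (u.1, b) w := by
    intro b
    have e1 : ip B u (u.1, b) = dl u.2 b := ip_same hB u.1 u.2 b
    unfold tp
    rw [e1]
    unfold dl
    by_cases hb : u.2 = b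
    · simp [hb]
    · simp [hb]
  rw [Finset.sum_congr rfl fun b _ => h2 b, sum_dl]
  have e2 : ip B u u = 1 := by
    have e1 : ip B u u = dl u.2 u.2 := ip_same hB u.1 u.2 u.2
    rw [e1, dl_self]
  show tp B u u w = _
  unfold tp gg
  rw [e2]; ring

theorem Td_eq (hB : IsMUBs B) : Td B = Th B - 6 * n - 3 * (n * ((n : ℂ) - 1)) := by
  have hsplit : ∀ u v w : Fin n × Fin 6,
      (if u.1 ≠ v.1 ∧ v.1 ≠ w.1 ∧ w.1 ≠ u.1 then tp B u v w else 0)
      = tp B u v w - (if u.1 = v.1 then tp B u v w else 0) - (if v.1 = w.1 then tp B v w u else 0)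
        - (if w.1 = u.1 then tp B w u v else 0)
        + 2 * (if u.1 = v.1 then (if u.1 = w.1 then tp B u v w else 0) else 0) := by
    intro u v w
    have r1 : tp B v w u = tp B u v w := (tp_rot u v w).symm
    have r2 : tp B w u v = tp B u v w := by rw [tp_rot w u v]
    rw [r1, r2]
    by_cases h1 : u.1 = v.1
    · by_cases h2 : v.1 = w.1
      · have h3 : w.1 = u.1 := (h1.trans h2).symm
        simp [h1, h2]; ring
      · have h3 : ¬ w.1 = u.1 := fun h => h2 (h1.symm.trans h.symm)
        have h4 : ¬ u.1 = w.1 := fun h => h3 h.symm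
        simp [h1, h2]
        intro h5; exact absurd h5.symm h2
    · by_cases h2 : v.1 = w.1
      · have h3 : ¬ w.1 = u.1 := fun h => h1 (h.symm.trans h2.symm)
        have h4 : ¬ u.1 = w.1 := fun h => h3 h.symm
        simp [h2, h3, h4]
      · by_cases h3 : w.1 = u.1
        · have h5 : ¬ v.1 = u.1 := fun h => h1 h.symm
          simp [h1, h3, h5]
        · simp [h1, h2, h3]
  have hs1 : ∑ u : Fin n × Fin 6, ∑ w : Fin n × Fin 6, gg B u w * gg B u w
      = 6 * n + n * ((n : ℂ) - 1) := by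
    simp only [sum_gg_sq hB]
    simp
    ring
  have hA : ∑ u : Fin n × Fin 6, ∑ v : Fin n × Fin 6, ∑ w : Fin n × Fin 6,
      (if u.1 = v.1 then tp B u v w else 0) = 6 * n + n * ((n : ℂ) - 1) := by
    rw [← hs1]
    refine Finset.sum_congr rfl fun u _ => ?_
    rw [Finset.sum_comm]
    exact Finset.sum_congr rfl fun w _ => sum_eq1 hB u w
  have hB1 : ∑ u : Fin n × Fin 6, ∑ v : Fin n × Fin 6, ∑ w : Fin n × Fin 6,
      (if v.1 = w.1 then tp B v w u else 0) = 6 * n + n * ((n : ℂ) - 1) := by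
    rw [← hs1]
    rw [Finset.sum_comm]
    refine Finset.sum_congr rfl fun v _ => ?_
    exact Finset.sum_congr rfl fun u _ => sum_eq1 hB v u
  have hC : ∑ u : Fin n × Fin 6, ∑ v : Fin n × Fin 6, ∑ w : Fin n × Fin 6,
      (if w.1 = u.1 then tp B w u v else 0) = 6 * n + n * ((n : ℂ) - 1) := by
    rw [← hs1]
    have h3 : ∀ u : Fin n × Fin 6, ∑ v : Fin n × Fin 6, ∑ w : Fin n × Fin 6,
        (if w.1 = u.1 then tp B w u v else 0)
        = ∑ w : Fin n × Fin 6, ∑ v : Fin n × Fin 6, (if w.1 = u.1 then tp B w u v else 0) :=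
      fun u => Finset.sum_comm
    simp only [h3]
    rw [Finset.sum_comm]
    refine Finset.sum_congr rfl fun w _ => ?_
    rw [Finset.sum_comm]
    exact Finset.sum_congr rfl fun v _ => sum_eq1 hB w v
  have hD : ∑ u : Fin n × Fin 6, ∑ v : Fin n × Fin 6, ∑ w : Fin n × Fin 6,
      (if u.1 = v.1 then (if u.1 = w.1 then tp B u v w else 0) else 0) = 6 * n := by
    have h4 : ∀ u : Fin n × Fin 6, ∑ v : Fin n × Fin 6, ∑ w : Fin n × Fin 6,
        (if u.1 = v.1 then (if u.1 = w.1 then tp B u v w else 0) else 0) = 1 := by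
      intro u
      rw [Finset.sum_comm]
      have h5 : ∀ w : Fin n × Fin 6, (∑ v : Fin n × Fin 6,
          if u.1 = v.1 then (if u.1 = w.1 then tp B u v w else 0) else 0)
          = if u.1 = w.1 then gg B u w * gg B u w else 0 := by
        intro w
        by_cases h : u.1 = w.1
        · simp only [h, if_true]
          rw [← h]
          exact sum_eq1 hB u w
        · simp [h]
      simp only [h5]
      rw [Fintype.sum_prod_type]
      have h6 : ∀ j : Fin n, (∑ b, if u.1 = (j, b).1 then gg B u (j, b) * gg B u (j, b) else 0)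
          = if u.1 = j then ∑ b, gg B u (j, b) * gg B u (j, b) else 0 := by
        intro j
        by_cases h : u.1 = j
        · simp [h]
        · simp [h]
      simp only [h6, Finset.sum_ite_eq, Finset.mem_univ, if_true]
      have h7 : ∀ b, gg B u (u.1, b) * gg B u (u.1, b) = dl u.2 b * 1 := by
        intro b
        have e1 : ip B u (u.1, b) = dl u.2 b := ip_same hB u.1 u.2 b
        have e2 : ip B (u.1, b) u = dl b u.2 := ip_same hB u.1 b u.2
        unfold gg
        rw [e1, e2, dl_symm b u.2, dl_sq, dl_sq, mul_one]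
      rw [Finset.sum_congr rfl fun b _ => h7 b, sum_dl]
    simp only [h4]
    simp [mul_comm]
  unfold Td Th
  have e0 : ∀ u v w : Fin n × Fin 6, (ip B u v * ip B v w * ip B w u) ^ 2 = tp B u v w :=
    fun u v w => rfl
  simp only [hsplit, e0, Finset.sum_add_distrib, Finset.sum_sub_distrib, ← Finset.mul_sum]
  rw [hA, hB1, hC, hD]
  ring

/-- **Five mutually unbiased bases: the sum of the squared triple products over triples of vectors
in three different bases is nonnegative.** -/
theorem Td_five {B : Fin 5 → M6} (hB : IsMUBs B) : 0 ≤ (Td B).re := by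
  have h := Th_five hB
  rw [Td_eq hB]
  have e : (Th B - 6 * ((5 : ℕ) : ℂ) - 3 * (((5 : ℕ) : ℂ) * (((5 : ℕ) : ℂ) - 1))) = Th B - 90 := by
    push_cast; ring
  rw [e]
  simpa using h

end Vale.Agent.P355.H138
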