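import Vale.Agent.P355.H138.Fast

/-! Fast recognition of graphs given by packed columns (five rows, index `0` the mark). -/

namespace Vale.Agent.P355.H138

open Finset
open Vale.Agent.P355.H129 (force force_eq dg rep sub sub_spec dg_sum sum_lt sum_dg)

set_option linter.unusedSectionVars false

variable {x : Fin 7 → Fin 7 → ℂ} {K : ℕ}

/-- the zero column (five digits). -/
def Zc : ℕ := 545392672

/-- exponent matrix of a list of packed columns `c = ∑_{i<5} (a_i + 32) 64 ^ i`. -/
def fE (cols : List ℕ) (i j : ℕ) : ℤ := if i < 5 then (d64 (cols.getD j Zc) i : ℤ) - 32 else 0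

/-- `∑_j (∑_i digit i of column j * 2 ^ (w' σ_i)) 2 ^ (w τ_j)`. -/
def colC (w' : ℕ) (σ : List ℕ) (w : ℕ) (cols : List ℕ) : List ℕ → ℕ :=
  List.rec (motive := fun _ => List ℕ → ℕ) (fun _ => 0)
    (fun c _ ih τ => List.rec (motive := fun _ => ℕ) 0
      (fun t τ' _ => Nat.add (Nat.shiftLeft (rowC w' σ c) (Nat.mul w t)) (ih τ')) τ) cols

/-- `∑_{j < length cols} 2 ^ (w τ_j)`. -/
def powT (w : ℕ) (cols : List ℕ) : List ℕ → ℕ :=
  List.rec (motive := fun _ => List ℕ → ℕ) (fun _ => 0)
    (fun _ _ ih τ => List.rec (motive := fun _ => ℕ) 0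
      (fun t τ' _ => Nat.add (Nat.shiftLeft 1 (Nat.mul w t)) (ih τ')) τ) cols

theorem colC_eq (w' : ℕ) (σ : List ℕ) (w : ℕ) (cols τ : List ℕ) (h : cols.length ≤ τ.length) :
    colC w' σ w cols τ = ∑ j ∈ range cols.length, ∑ i ∈ range σ.length,
      d64 (cols.getD j Zc) i * 2 ^ (w' * σ.getD i 0 + w * τ.getD j 0) := by
  induction cols generalizing τ with
  | nil => rfl
  | cons c cols ih =>
    cases τ with
    | nil => simp at h
    | cons t τ =>
      have e1 : colC w' σ w (c :: cols) (t :: τ)
          = (rowC w' σ c) <<< (w * t) + colC w' σ w cols τ := rfl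
      rw [e1, ih τ (by simpa using h), List.length_cons, Finset.sum_range_succ', add_comm,
        Nat.shiftLeft_eq, rowC_eq, Finset.sum_mul]
      congr 1
      refine Finset.sum_congr rfl fun i _ => ?_
      simp only [List.getD_cons_zero]
      rw [pow_add]; ring

theorem powT_eq (w : ℕ) (cols τ : List ℕ) (h : cols.length ≤ τ.length) :
    powT w cols τ = ∑ j ∈ range cols.length, 2 ^ (w * τ.getD j 0) := by
  induction cols generalizing τ with
  | nil => rfl
  | cons c cols ih =>
    cases τ with
    | nil => simp at h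
    | cons t τ =>
      have e1 : powT w (c :: cols) (t :: τ) = 1 <<< (w * t) + powT w cols τ := rfl
      rw [e1, ih τ (by simpa using h), List.length_cons, Finset.sum_range_succ', add_comm,
        Nat.shiftLeft_eq, one_mul]
      rfl

/-- `∑ 2 ^ (w σ_i)`. -/
def powW (w : ℕ) (σ : List ℕ) : ℕ :=
  List.rec (motive := fun _ => ℕ) 0 (fun s _ ih => Nat.add (Nat.shiftLeft 1 (Nat.mul w s)) ih) σ

theorem powW_eq (w : ℕ) (σ : List ℕ) : powW w σ = ∑ i ∈ range σ.length, 2 ^ (w * σ.getD i 0) := by
  induction σ with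
  | nil => rfl
  | cons s σ ih =>
    have e1 : powW w (s :: σ) = 1 <<< (w * s) + powW w σ := rfl
    rw [e1, ih, List.length_cons, Finset.sum_range_succ', add_comm, Nat.shiftLeft_eq, one_mul]
    rfl

/-- column check: all five entries are between `-16` and `15`. -/
def smC (c : ℕ) : Bool := Nat.ble 272696336 c && sub 528349151 (Nat.sub c 272696336)

theorem smC_spec {c : ℕ} (h : smC c = true) : ∀ i < 5, 16 ≤ d64 c i ∧ d64 c i < 48 := by
  unfold smC at h
  simp only [Bool.and_eq_true, Nat.ble_eq] at h
  obtain ⟨h1, h2⟩ := h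
  obtain ⟨X, hX⟩ : ∃ X, X = c - 272696336 := ⟨_, rfl⟩
  change sub 528349151 (c - 272696336) = true at h2
  have e31 : (528349151 : ℕ) = (2 ^ 5 - 1) * rep (2 ^ 6) 5 := by decide
  rw [← hX, e31] at h2
  obtain ⟨hlt, hd⟩ := sub_spec (by norm_num : 5 ≤ 6) 5 X h2
  rw [show (2 : ℕ) ^ 6 = 64 from rfl] at hlt hd
  have hC : c = ∑ j ∈ range 5, (dg 64 X j + 16) * 64 ^ j := by
    have e1 : c = X + 16 * rep 64 5 := by
      have : 16 * rep 64 5 = 272696336 := by decide
      omega
    rw [e1]
    have e2 : ∑ j ∈ range 5, (dg 64 X j + 16) * 64 ^ j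
        = ∑ j ∈ range 5, dg 64 X j * 64 ^ j + 16 * rep 64 5 := by
      unfold rep
      rw [Finset.mul_sum, ← Finset.sum_add_distrib]
      exact Finset.sum_congr rfl fun j _ => by ring
    rw [e2, sum_dg (by norm_num) 5 X hlt]
  have hb : ∀ j < 5, dg 64 X j + 16 < 64 := fun j _ => by
    have := hd j; norm_num at this; omega
  intro i hi
  rw [d64_eq, hC, dg_sum hi hb]
  have := hd i
  norm_num at this
  omega

/-- all columns are small. -/
def smCs (cols : List ℕ) : Bool :=
  List.rec (motive := fun _ => Bool) true (fun c _ ih => and (smC c) ih) cols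

theorem smCs_spec {cols : List ℕ} (h : smCs cols = true) (j : ℕ) (hj : j < cols.length) :
    smC (cols.getD j Zc) = true := by
  induction cols generalizing j with
  | nil => simp at hj
  | cons c cols ih =>
    have h' : (smC c && smCs cols) = true := h
    rw [Bool.and_eq_true] at h'
    cases j with
    | zero => simpa using h'.1
    | succ j => simpa using ih h'.2 j (by simpa using hj)

theorem d64_Zc : ∀ i < 5, d64 Zc i = 32 := by decide

/-- recognition of a graph given by packed columns; `σ5`: places of the five rows, `σr`: places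
of the other rows. -/
def eck (k : Cst) (K : ℕ) (σ5 σr τ : List ℕ) (t : Bool) (cols : List ℕ) (c : ℕ) : Bool :=
  smCs cols && permOK K k.E (σ5 ++ σr) && permOK K k.E τ &&
    Nat.beq σ5.length 5 && Nat.ble cols.length τ.length &&
    force (colC (cond t 6 k.r) σ5 (cond t k.r 6) cols τ) fun M =>
      force (Nat.mul 32 (Nat.mul (powW (cond t 6 k.r) σ5) (powT (cond t k.r 6) cols τ))) fun O =>
        cond (Nat.beq M (Nat.add c O)) true (Nat.beq (Nat.add M c) O)

theorem eck_sound (hx : Base x) {k : Cst} (hk : k.Ok K) {σ5 σr τ : List ℕ} {t : Bool}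
    {cols : List ℕ} {c : ℕ} (h : eck k K σ5 σr τ t cols c = true) (b : Bool) :
    rv x b (Mf K (fE cols)) = cv K x b c := by
  obtain ⟨hK, hE, hr, -, -, -⟩ := hk
  unfold eck at h
  simp only [Bool.and_eq_true, force_eq] at h
  obtain ⟨⟨⟨⟨⟨hC, hσ⟩, hτ⟩, h5⟩, hlen⟩, h⟩ := h
  have h5 : σ5.length = 5 := Nat.eq_of_beq_eq_true h5
  have hlen : cols.length ≤ τ.length := Nat.le_of_ble_eq_true hlen
  obtain ⟨lσ, s0, s1, s2⟩ := permOK_spec hK hE hσ
  obtain ⟨lτ, t0, t1, t2⟩ := permOK_spec hK hE hτ
  have hσ' := okPerm_of s0 s1 s2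
  have hτ' := okPerm_of t0 t1 t2
  have hσ5 : ∀ i < 5, (σ5 ++ σr).getD i 0 = σ5.getD i 0 := by
    intro i hi
    simp only [List.getD_eq_getElem?_getD]
    rw [List.getElem?_append_left (by omega)]
  have h5K : 5 ≤ K + 1 := by
    rw [← lσ, List.length_append]; omega
  have hd : ∀ j, j < cols.length → ∀ i < 5, 16 ≤ d64 (cols.getD j Zc) i ∧
      d64 (cols.getD j Zc) i < 48 := fun j hj => smC_spec (smCs_spec hC j hj)
  have hz : ∀ j, cols.length ≤ j → ∀ i, fE cols i j = 0 := by
    intro j hj i
    unfold fE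
    split_ifs with hi
    · rw [List.getD_eq_default _ _ hj, d64_Zc i hi]; norm_num
    · rfl
  have hsm : smAll K (fE cols) = true := by
    simp only [smAll, allLe, List.all_eq_true, List.mem_range, Bool.and_eq_true,
      decide_eq_true_eq]
    intro i hi j hj
    by_cases hj' : j < cols.length
    · unfold fE
      split_ifs with hi5
      · have := hd j hj' i hi5
        constructor <;> omega
      · constructor <;> omega
    · rw [hz j (not_lt.1 hj')]; constructor <;> omega
  -- the code
  have hcode : (colC (cond t 6 k.r) σ5 (cond t k.r 6) cols τ : ℤ)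
      = pcode K (fE cols) (pOf (σ5 ++ σr)) (pOf τ) t
        + (Nat.mul 32 (Nat.mul (powW (cond t 6 k.r) σ5) (powT (cond t k.r 6) cols τ)) : ℕ) := by
    have e0 : (Nat.mul 32 (Nat.mul (powW (cond t 6 k.r) σ5) (powT (cond t k.r 6) cols τ)) : ℕ)
        = ∑ j ∈ range cols.length, ∑ i ∈ range 5, 32 *
          2 ^ (cond t 6 k.r * σ5.getD i 0 + cond t k.r 6 * τ.getD j 0) := by
      change 32 * (powW (cond t 6 k.r) σ5 * powT (cond t k.r 6) cols τ) = _
      rw [powW_eq, powT_eq _ _ _ hlen, h5, Finset.sum_mul_sum, Finset.sum_comm, Finset.mul_sum]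
      refine Finset.sum_congr rfl fun j _ => ?_
      rw [Finset.mul_sum]
      exact Finset.sum_congr rfl fun i _ => by rw [pow_add]
    rw [e0, colC_eq _ _ _ _ _ hlen, h5]
    have e1 : pcode K (fE cols) (pOf (σ5 ++ σr)) (pOf τ) t
        = ∑ j ∈ range cols.length, ∑ i ∈ range 5, ((d64 (cols.getD j Zc) i : ℤ) - 32) *
          2 ^ (cond t 6 k.r * σ5.getD i 0 + cond t k.r 6 * τ.getD j 0) := by
      unfold pcode
      simp only [sumR_eq]
      rw [Finset.sum_comm]
      have hle : cols.length ≤ K + 1 := by omega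
      rw [← Finset.sum_subset (Finset.range_subset_range.2 hle)]
      · refine Finset.sum_congr rfl fun j hj => ?_
        rw [← Finset.sum_subset (Finset.range_subset_range.2 h5K)]
        · refine Finset.sum_congr rfl fun i hi => ?_
          have hi5 := Finset.mem_range.1 hi
          have hpow : (2 : ℤ) ^ (cond t 6 k.r * σ5.getD i 0 + cond t k.r 6 * τ.getD j 0)
              = 64 ^ (if t then (K + 1) * pOf τ j + pOf (σ5 ++ σr) i
                else (K + 1) * pOf (σ5 ++ σr) i + pOf τ j) := by
            unfold pOf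
            rw [hσ5 i hi5]
            cases t
            · simp only [cond_false, Bool.false_eq_true, if_false, hr]
              rw [show 6 * (K + 1) * σ5.getD i 0 + 6 * τ.getD j 0
                = 6 * ((K + 1) * σ5.getD i 0 + τ.getD j 0) from by ring, pow_mul]
              norm_num
            · simp only [cond_true, if_true, hr]
              rw [show 6 * σ5.getD i 0 + 6 * (K + 1) * τ.getD j 0
                = 6 * ((K + 1) * τ.getD j 0 + σ5.getD i 0) from by ring, pow_mul]
              norm_num
          rw [hpow]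
          unfold fE
          rw [if_pos hi5]
        · intro i _ hi
          have : ¬ i < 5 := fun h => hi (Finset.mem_range.2 h)
          unfold fE
          rw [if_neg this, zero_mul]
      · intro j _ hj
        refine Finset.sum_eq_zero fun i _ => ?_
        rw [hz j (not_lt.1 fun h => hj (Finset.mem_range.2 h)) i, zero_mul]
    rw [e1]
    push_cast
    rw [← Finset.sum_add_distrib]
    refine Finset.sum_congr rfl fun j _ => ?_
    rw [← Finset.sum_add_distrib]
    exact Finset.sum_congr rfl fun i _ => by ring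
  have hfin : pcode K (fE cols) (pOf (σ5 ++ σr)) (pOf τ) t = c
      ∨ pcode K (fE cols) (pOf (σ5 ++ σr)) (pOf τ) t = -c := by
    set M := colC (cond t 6 k.r) σ5 (cond t k.r 6) cols τ with hM
    set O := Nat.mul 32 (Nat.mul (powW (cond t 6 k.r) σ5) (powT (cond t k.r 6) cols τ)) with hO
    rcases hb : Nat.beq M (Nat.add c O) with _ | _
    · rw [hb, cond_false, Nat.beq_eq] at h
      right
      have : (M : ℤ) + c = O := by exact_mod_cast h
      linarith
    · left
      have h5 : M = c + O := Nat.eq_of_beq_eq_true hb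
      have : (M : ℤ) = c + O := by exact_mod_cast h5
      linarith
  refine recog_sound hx (σ := pOf (σ5 ++ σr)) (τ := pOf τ) (t := t) ?_ b
  simp only [recog, hσ', hτ', hsm, Bool.and_true, Bool.true_and, Bool.or_eq_true, beq_iff_eq]
  exact hfin

end Vale.Agent.P355.H138
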