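import Vale.Agent.P355.H138.Chunk

/-! Packed reductions of graphs: deletion of a trivial line and merging. -/

namespace Vale.Agent.P355.H138

open Finset
open Vale.Agent.P355.H129 (force force_eq dg rep sub sub_spec dg_sum sum_lt sum_dg NRep RelPack)

set_option linter.unusedSectionVars false

variable {x : Fin 7 → Fin 7 → ℂ} {K W : ℕ} {m : Bool}

/-! ### Soundness of single steps for functions -/

/-- result of a deletion. -/
def gdel (g : ℕ → ℕ → ℤ) (q : ℕ) : ℕ → ℕ → ℤ := fun i j => if j = q then 0 else g i j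

/-- result of merging `t1` into `t0`. -/
def gmrg (g : ℕ → ℕ → ℤ) (t0 t1 : ℕ) : ℕ → ℕ → ℤ := fun i j =>
  if i = t1 then 0 else if i = t0 then g t0 j + g t1 j else g i j

theorem allLe_of {K : ℕ} {t : ℕ → Bool} (h : ∀ i ≤ K, t i = true) : allLe K t = true := by
  unfold allLe
  rw [List.all_eq_true]
  intro i hi
  exact h i (by have := List.mem_range.1 hi; omega)

theorem del_sound (hx : Good m x) (g : ℕ → ℕ → ℤ) {q t : ℕ} (hq : q ≠ 0) (hqK : q ≤ K)
    (htK : t ≤ K) (hm : m = true ∨ t ≠ 0) (h1 : g t q = 1 ∨ g t q = -1)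
    (h0 : ∀ i ≤ K, i ≠ t → g i q = 0) (b : Bool) :
    (6 : ℝ) ^ (if b then 0 else 1) * rv x b (Mf K g) = rv x (!b) (Mf K (gdel g q)) := by
  have hs : step m K ⟨b, 0, g⟩ (.del t q) = some ⟨!b, if b then 0 else 1, gdel g q⟩ := by
    have c1 : allLe K (fun i => i == t || g i q == 0) = true := allLe_of fun i hi => by
      by_cases hit : i = t
      · simp [hit]
      · simp [h0 i hi hit]
    have c2 : (g t q == 1 || g t q == -1) = true := by
      rcases h1 with h | h <;> simp [h]
    have c3 : (m || t != 0) = true := by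
      rcases hm with h | h <;> simp [h]
    have c4 : (q != 0) = true := by simp [hq]
    simp only [step, c1, c2, c3, c4, hqK, htK, decide_true, Bool.and_self, if_true]
    rfl
  have := step_sound hx _ _ _ hs
  simpa using this

theorem mrg_sound (hx : Good m x) (g : ℕ → ℕ → ℤ) {q t0 t1 : ℕ} (hq : q ≠ 0) (hqK : q ≤ K)
    (ht0 : t0 ≠ 0) (ht0K : t0 ≤ K) (ht1 : t1 ≠ 0) (ht1K : t1 ≤ K) (hne : t0 ≠ t1)
    (h0 : g t0 q = 1) (h1 : g t1 q = -1) (hz : ∀ i ≤ K, i ≠ t0 → i ≠ t1 → g i q = 0) (b : Bool) :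
    (6 : ℝ) ^ 1 * rv x b (Mf K g) = rv x b (Mf K (gmrg g t0 t1)) := by
  have hs : step m K ⟨b, 0, g⟩ (.mrg t0 t1 q) = some ⟨b, 0 + 1, gmrg g t0 t1⟩ := by
    have c1 : allLe K (fun i => i == t0 || i == t1 || g i q == 0) = true :=
      allLe_of fun i hi => by
        by_cases hi0 : i = t0
        · simp [hi0]
        · by_cases hi1 : i = t1
          · simp [hi1]
          · simp [hz i hi hi0 hi1]
    have c2 : (g t0 q == 1) = true := by simp [h0]
    have c3 : (g t1 q == -1) = true := by simp [h1]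
    have c4 : (q != 0) = true := by simp [hq]
    have c5 : (t0 != 0) = true := by simp [ht0]
    have c6 : (t1 != 0) = true := by simp [ht1]
    have c7 : (t0 != t1) = true := by simp [hne]
    simp only [step, c1, c2, c3, c4, c5, c6, c7, hqK, ht0K, ht1K, decide_true, Bool.and_self,
      if_true]
    rfl
  have := step_sound hx _ _ _ hs
  simpa using this

/-! ### Digits of double sums -/

/-- `C` packs the function `g` with position `α i + β j`. -/
def IsC (α β K : ℕ) (g : ℕ → ℕ → ℤ) (C : ℕ) : Prop :=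
  (C : ℤ) = ∑ i ∈ range (K + 1), ∑ j ∈ range (K + 1), (g i j + 32) * 64 ^ (α * i + β * j) ∧
    ∀ i ≤ K, ∀ j ≤ K, -32 ≤ g i j ∧ g i j < 32

theorem IsC.swap {α β : ℕ} {g : ℕ → ℕ → ℤ} {C : ℕ} (h : IsC α β K g C) :
    IsC β α K (fun i j => g j i) C := by
  refine ⟨?_, fun i hi j hj => h.2 j hj i hi⟩
  rw [h.1, Finset.sum_comm]
  refine Finset.sum_congr rfl fun i _ => Finset.sum_congr rfl fun j _ => ?_
  rw [add_comm (α * j)]

theorem sum_double (n k : ℕ) (F : ℕ → ℕ → ℕ) :
    ∑ i ∈ range n, ∑ j ∈ range k, F i j * 64 ^ (k * i + j)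
      = ∑ t ∈ range (k * n), F (t / k) (t % k) * 64 ^ t := by
  induction n with
  | zero => simp
  | succ n ih =>
    rw [Finset.sum_range_succ, ih, Nat.mul_succ, Finset.sum_range_add]
    congr 1
    refine Finset.sum_congr rfl fun j hj => ?_
    have hj' := Finset.mem_range.1 hj
    rw [Nat.mul_add_div (by omega), Nat.div_eq_of_lt hj', Nat.mul_add_mod,
      Nat.mod_eq_of_lt hj', add_zero]

theorem IsC.digit {g : ℕ → ℕ → ℤ} {C : ℕ} (h : IsC (K + 1) 1 K g C) {i j : ℕ} (hi : i ≤ K)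
    (hj : j ≤ K) : (d64 C ((K + 1) * i + j) : ℤ) = g i j + 32 := by
  obtain ⟨hC, hb⟩ := h
  set F : ℕ → ℕ → ℕ := fun i j => (g i j + 32).toNat with hF
  have hFv : ∀ i ≤ K, ∀ j ≤ K, (F i j : ℤ) = g i j + 32 := fun i hi j hj =>
    Int.toNat_of_nonneg (by have := (hb i hi j hj).1; omega)
  have hC' : C = ∑ t ∈ range ((K + 1) * (K + 1)), F (t / (K + 1)) (t % (K + 1)) * 64 ^ t := by
    rw [← sum_double]
    have : (C : ℤ) = ((∑ i ∈ range (K + 1), ∑ j ∈ range (K + 1),
        F i j * 64 ^ ((K + 1) * i + j) : ℕ) : ℤ) := by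
      rw [hC]
      push_cast
      refine Finset.sum_congr rfl fun i hi => Finset.sum_congr rfl fun j hj => ?_
      rw [← hFv i (by have := Finset.mem_range.1 hi; omega) j
        (by have := Finset.mem_range.1 hj; omega), one_mul]
    exact_mod_cast this
  have hlt : ∀ t < (K + 1) * (K + 1), F (t / (K + 1)) (t % (K + 1)) < 64 := by
    intro t ht
    have h1 : t / (K + 1) < K + 1 := Nat.div_lt_of_lt_mul ht
    have h2 : t % (K + 1) < K + 1 := Nat.mod_lt _ (by omega)
    have := hFv (t / (K + 1)) (by omega) (t % (K + 1)) (by omega)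
    have := (hb (t / (K + 1)) (by omega) (t % (K + 1)) (by omega)).2
    omega
  have hidx : (K + 1) * i + j < (K + 1) * (K + 1) := by nlinarith
  rw [d64_eq, hC', dg_sum hidx hlt, ← hFv i hi j hj]
  congr 1
  congr 1
  · rw [Nat.mul_add_div (by omega), Nat.div_eq_of_lt (by omega), add_zero]
  · rw [Nat.mul_add_mod, Nat.mod_eq_of_lt (by omega)]

/-- packed matrices with small entries. -/
theorem isC_of_smN {k : Cst} (hk : k.Ok K) {C : ℕ} (h : smN k C = true) :
    IsC (K + 1) 1 K (dN K C) C ∧ ∀ i ≤ K, ∀ j ≤ K, -16 ≤ dN K C i j ∧ dN K C i j < 16 := by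
  obtain ⟨hlt, hd⟩ := smN_spec hk h
  have hb : ∀ i ≤ K, ∀ j ≤ K, -16 ≤ dN K C i j ∧ dN K C i j < 16 := by
    intro i hi j hj
    have hidx : (K + 1) * i + j < (K + 1) * (K + 1) := by nlinarith
    have := hd _ hidx
    unfold dN
    omega
  refine ⟨⟨?_, fun i hi j hj => ?_⟩, hb⟩
  · have h1 : C = ∑ t ∈ range ((K + 1) * (K + 1)), d64 C t * 64 ^ t := by
      have := sum_dg (B := 64) (by norm_num) ((K + 1) * (K + 1)) C hlt
      rw [← this]
      conv_rhs => rw [this]
      exact Finset.sum_congr rfl fun t _ => by rw [d64_eq]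
    have h2 := sum_double (K + 1) (K + 1) fun i j => d64 C ((K + 1) * i + j)
    have h3 : ∑ t ∈ range ((K + 1) * (K + 1)), d64 C ((K + 1) * (t / (K + 1)) + t % (K + 1)) * 64 ^ t
        = C := by
      conv_rhs => rw [h1]
      exact Finset.sum_congr rfl fun t _ => by rw [Nat.div_add_mod]
    have h4 : (C : ℤ) = ((∑ i ∈ range (K + 1), ∑ j ∈ range (K + 1),
        d64 C ((K + 1) * i + j) * 64 ^ ((K + 1) * i + j) : ℕ) : ℤ) := by
      rw [h2, h3]
    rw [h4]
    push_cast
    refine Finset.sum_congr rfl fun i _ => Finset.sum_congr rfl fun j _ => ?_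
    unfold dN
    rw [one_mul]; ring
  · have := hb i hi j hj
    omega

/-! ### Lines -/

/-- `∑_{t<n} (digit s t of R) 2 ^ (o t)`, `s6 = 6 s`. -/
def lineO (s6 o n : ℕ) : ℕ → ℕ :=
  Nat.rec (motive := fun _ => ℕ → ℕ) (fun _ => 0)
    (fun _ ih R => Nat.add (Nat.mod R 64) (Nat.shiftLeft (ih (Nat.shiftRight R s6)) o)) n

theorem lineO_eq (s o n C a : ℕ) :
    lineO (6 * s) o n (C >>> (6 * a)) = ∑ t ∈ range n, d64 C (a + s * t) * 2 ^ (o * t) := by
  induction n generalizing a with
  | zero => rfl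
  | succ n ih =>
    have e1 : lineO (6 * s) o (n + 1) (C >>> (6 * a)) = (C >>> (6 * a)) % 64
      + (lineO (6 * s) o n ((C >>> (6 * a)) >>> (6 * s))) <<< o := rfl
    rw [e1, ← Nat.shiftRight_add, ← Nat.mul_add, ih, Finset.sum_range_succ', add_comm,
      Nat.shiftLeft_eq, Finset.sum_mul]
    congr 1
    · refine Finset.sum_congr rfl fun t _ => ?_
      rw [show a + s + s * t = a + s * (t + 1) from by ring,
        show o * (t + 1) = o * t + o from by ring, pow_add, mul_assoc]
    · simp [d64]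

/-- equality of two digit sums. -/
theorem digits_eq {n : ℕ} {f g : ℕ → ℕ} (hf : ∀ i < n, f i < 64) (hg : ∀ i < n, g i < 64)
    (h : ∑ i ∈ range n, f i * 64 ^ i = ∑ i ∈ range n, g i * 64 ^ i) (i : ℕ) (hi : i < n) :
    f i = g i := by
  rw [← dg_sum hi hf, h, dg_sum hi hg]

/-- value of a line: exactly one entry `± 1`. -/
theorem line_one {n L : ℕ} {D : ℕ → ℕ} {E : ℕ} (hE : E = rep 64 n) (hD : ∀ i < n, D i < 64)
    (hL : L = ∑ i ∈ range n, D i * 64 ^ i) {t : ℕ} (ht : t < n) :
    (L = 32 * E + 64 ^ t → ∀ i < n, (D i : ℤ) - 32 = if i = t then 1 else 0) ∧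
    (L + 64 ^ t = 32 * E → ∀ i < n, (D i : ℤ) - 32 = if i = t then -1 else 0) := by
  have hrep : 32 * E = ∑ i ∈ range n, 32 * 64 ^ i := by
    rw [hE]; unfold rep; rw [Finset.mul_sum]
  constructor
  · intro h i hi
    have h2 : ∑ i ∈ range n, D i * 64 ^ i = ∑ i ∈ range n, (32 + if i = t then 1 else 0) * 64 ^ i := by
      rw [← hL, h, hrep]
      simp only [add_mul, ite_mul, one_mul, zero_mul, Finset.sum_add_distrib]
      rw [Finset.sum_ite_eq' (range n) t, if_pos (Finset.mem_range.2 ht)]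
    have := digits_eq hD (fun j _ => by split_ifs <;> norm_num) h2 i hi
    rw [this]
    split_ifs <;> simp
  · intro h i hi
    have h2 : ∑ i ∈ range n, (D i + if i = t then 1 else 0) * 64 ^ i
        = ∑ i ∈ range n, 32 * 64 ^ i := by
      rw [← hrep, ← h, hL]
      simp only [add_mul, ite_mul, one_mul, zero_mul, Finset.sum_add_distrib]
      rw [Finset.sum_ite_eq' (range n) t, if_pos (Finset.mem_range.2 ht)]
    -- digits can be 64 only if `D i = 63`; compare as integers
    have h3 : ∑ i ∈ range n, D i * 64 ^ i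
        = ∑ i ∈ range n, (if i = t then 31 else 32) * 64 ^ i := by
      have h4 : ∑ i ∈ range n, (if i = t then 31 else 32) * 64 ^ i
          + ∑ i ∈ range n, (if i = t then 1 else 0) * 64 ^ i = ∑ i ∈ range n, 32 * 64 ^ i := by
        rw [← Finset.sum_add_distrib]
        refine Finset.sum_congr rfl fun i _ => ?_
        split_ifs <;> ring
      have h5 : ∑ i ∈ range n, D i * 64 ^ i + ∑ i ∈ range n, (if i = t then 1 else 0) * 64 ^ i
          = ∑ i ∈ range n, 32 * 64 ^ i := by
        rw [← h2, ← Finset.sum_add_distrib]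
        exact Finset.sum_congr rfl fun i _ => by ring
      omega
    have := digits_eq hD (fun j _ => by split_ifs <;> norm_num) h3 i hi
    rw [this]
    split_ifs <;> simp

/-- value of a line: `1` at `t0`, `-1` at `t1`. -/
theorem line_two {n L : ℕ} {D : ℕ → ℕ} {E : ℕ} (hE : E = rep 64 n) (hD : ∀ i < n, D i < 64)
    (hL : L = ∑ i ∈ range n, D i * 64 ^ i) {t0 t1 : ℕ} (ht0 : t0 < n) (ht1 : t1 < n)
    (hne : t0 ≠ t1) (h : L + 64 ^ t1 = 32 * E + 64 ^ t0) :
    ∀ i < n, (D i : ℤ) - 32 = if i = t0 then 1 else if i = t1 then -1 else 0 := by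
  have hrep : 32 * E = ∑ i ∈ range n, 32 * 64 ^ i := by
    rw [hE]; unfold rep; rw [Finset.mul_sum]
  have s0 : ∑ i ∈ range n, (if i = t0 then 1 else 0) * 64 ^ i = 64 ^ t0 := by
    simp only [ite_mul, one_mul, zero_mul]
    rw [Finset.sum_ite_eq' (range n) t0, if_pos (Finset.mem_range.2 ht0)]
  have s1 : ∑ i ∈ range n, (if i = t1 then 1 else 0) * 64 ^ i = 64 ^ t1 := by
    simp only [ite_mul, one_mul, zero_mul]
    rw [Finset.sum_ite_eq' (range n) t1, if_pos (Finset.mem_range.2 ht1)]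
  have h3 : ∑ i ∈ range n, D i * 64 ^ i
      = ∑ i ∈ range n, (if i = t0 then 33 else if i = t1 then 31 else 32) * 64 ^ i := by
    have h4 : ∑ i ∈ range n, (if i = t0 then 33 else if i = t1 then 31 else 32) * 64 ^ i
        + ∑ i ∈ range n, (if i = t1 then 1 else 0) * 64 ^ i
        = ∑ i ∈ range n, 32 * 64 ^ i + ∑ i ∈ range n, (if i = t0 then 1 else 0) * 64 ^ i := by
      rw [← Finset.sum_add_distrib, ← Finset.sum_add_distrib]
      refine Finset.sum_congr rfl fun i _ => ?_
      by_cases e0 : i = t0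
      · have e1 : i ≠ t1 := fun e1 => hne (e0.symm.trans e1)
        rw [if_pos e0, if_neg e1, if_pos e0]; ring
      · by_cases e1 : i = t1
        · rw [if_neg e0, if_pos e1, if_pos e1, if_neg e0]; ring
        · rw [if_neg e0, if_neg e1, if_neg e1, if_neg e0]
    rw [s0, s1] at h4
    rw [← hL]
    omega
  intro i hi
  have := digits_eq hD (fun j _ => by split_ifs <;> norm_num) h3 i hi
  rw [this]
  split_ifs <;> simp

/-! ### Values -/

/-- the packed value of a function with position `α i + β j`. -/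
theorem pv_isC (o : Bool) {g : ℕ → ℕ → ℤ} {C : ℕ}
    (h : IsC (cond o 1 (K + 1)) (cond o (K + 1) 1) K g C) (b : Bool) :
    rv x b (Mf K g) = pv K x b C := by
  unfold pv
  cases o
  · have h1 : Mf K (dN K C) = Mf K g := by
      funext p q
      have hp := idx_lt p
      have hq := idx_lt q
      have := h.digit (i := idx p) (j := idx q) (by omega) (by omega)
      unfold Mf dN
      omega
    rw [h1]
  · have h1 : Mf K (dN K C) = Mf K fun i j => g j i := by
      funext p q
      have hp := idx_lt p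
      have hq := idx_lt q
      have := h.swap.digit (i := idx p) (j := idx q) (by omega) (by omega)
      beta_reduce at this
      unfold Mf dN
      beta_reduce
      omega
    rw [h1]
    exact (rv_swap b (Mf K g)).symm

/-- deletion of the packed line `q` (a column, or a row if `o`) with a single entry at `t`. -/
theorem isC_del {α β : ℕ} {g : ℕ → ℕ → ℤ} {C : ℕ} (h : IsC α β K g C) {q t : ℕ} (hq : q ≤ K)
    (ht : t ≤ K) (hz : ∀ i ≤ K, i ≠ t → g i q = 0) (C' : ℕ)
    (hC' : (C' : ℤ) = C - g t q * 64 ^ (α * t + β * q)) : IsC α β K (gdel g q) C' := by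
  refine ⟨?_, fun i hi j hj => ?_⟩
  · rw [hC', h.1]
    have e1 : ∀ i ∈ range (K + 1), ∑ j ∈ range (K + 1), (gdel g q i j + 32) * 64 ^ (α * i + β * j)
        = ∑ j ∈ range (K + 1), (g i j + 32) * 64 ^ (α * i + β * j)
          - g i q * 64 ^ (α * i + β * q) := by
      intro i _
      have e2 : ∑ j ∈ range (K + 1), (if j = q then g i j * 64 ^ (α * i + β * j) else 0)
          = g i q * (64 : ℤ) ^ (α * i + β * q) := by
        rw [Finset.sum_ite_eq' (range (K + 1)) q, if_pos (Finset.mem_range.2 (by omega))]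
      rw [← e2, ← Finset.sum_sub_distrib]
      refine Finset.sum_congr rfl fun j _ => ?_
      unfold gdel
      split_ifs with hj
      · ring
      · ring
    rw [Finset.sum_congr rfl e1, Finset.sum_sub_distrib]
    congr 1
    rw [Finset.sum_eq_single t]
    · intro i hi hit
      rw [hz i (by have := Finset.mem_range.1 hi; omega) hit, zero_mul]
    · intro hh
      exact absurd (Finset.mem_range.2 (by omega)) hh
  · unfold gdel
    split_ifs
    · omega
    · exact h.2 i hi j hj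

theorem isC_mrg {α β : ℕ} {g : ℕ → ℕ → ℤ} {C : ℕ} (h : IsC α β K g C)
    (hs : ∀ i ≤ K, ∀ j ≤ K, -16 ≤ g i j ∧ g i j < 16) {t0 t1 : ℕ} (ht0 : t0 ≤ K)
    (ht1 : t1 ≤ K) (hne : t0 ≠ t1) (C' : ℕ)
    (hC' : (C' : ℤ) = C + (∑ j ∈ range (K + 1), g t1 j * 64 ^ (β * j))
      * (64 ^ (α * t0) - 64 ^ (α * t1))) : IsC α β K (gmrg g t0 t1) C' := by
  refine ⟨?_, fun i hi j hj => ?_⟩
  · rw [hC', h.1]
    have e1 : ∀ i ∈ range (K + 1), ∑ j ∈ range (K + 1), (gmrg g t0 t1 i j + 32)
          * (64 : ℤ) ^ (α * i + β * j)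
        = ∑ j ∈ range (K + 1), (g i j + 32) * 64 ^ (α * i + β * j)
          + ((if i = t0 then (∑ j ∈ range (K + 1), g t1 j * 64 ^ (β * j)) * 64 ^ (α * i) else 0)
          - (if i = t1 then (∑ j ∈ range (K + 1), g t1 j * 64 ^ (β * j)) * 64 ^ (α * i) else 0)) := by
      intro i _
      by_cases e1 : i = t1
      · subst e1
        rw [if_neg (Ne.symm hne), if_pos rfl, zero_sub, Finset.sum_mul, ← sub_eq_add_neg,
          ← Finset.sum_sub_distrib]
        refine Finset.sum_congr rfl fun j _ => ?_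
        unfold gmrg
        rw [if_pos rfl, pow_add]; ring
      · by_cases e0 : i = t0
        · subst e0
          rw [if_pos rfl, if_neg hne, sub_zero, Finset.sum_mul, ← Finset.sum_add_distrib]
          refine Finset.sum_congr rfl fun j _ => ?_
          unfold gmrg
          rw [if_neg hne, if_pos rfl, pow_add]; ring
        · rw [if_neg e0, if_neg e1, sub_zero, add_zero]
          refine Finset.sum_congr rfl fun j _ => ?_
          unfold gmrg
          rw [if_neg e1, if_neg e0]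
    rw [Finset.sum_congr rfl e1, Finset.sum_add_distrib, Finset.sum_sub_distrib,
      Finset.sum_ite_eq' (range (K + 1)) t0, Finset.sum_ite_eq' (range (K + 1)) t1,
      if_pos (Finset.mem_range.2 (by omega)), if_pos (Finset.mem_range.2 (by omega))]
    ring
  · have h1 := hs i hi j hj
    have h2 := hs t0 ht0 j hj
    have h3 := hs t1 ht1 j hj
    unfold gmrg
    split_ifs <;> omega

/-! ### Executable steps -/

/-- `∑_{u ≤ K} 64 ^ ((K + 1) u)`. -/
def CstE2 (K : ℕ) (E2 : ℕ) : Prop := E2 = ∑ u ∈ range (K + 1), 64 ^ ((K + 1) * u)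

/-- deletion step: `o`: orientation (`false`: column), `q`: line, `t`: place of the entry,
`s`: its sign (`0`: `1`, otherwise `-1`); `kt` is applied to the new packed matrix. -/
def opDel (k : Cst) (K : ℕ) (m o : Bool) (q t s C : ℕ) : (ℕ → Bool) → Bool := fun kt =>
  and (and (Nat.ble 1 q) (Nat.ble q K)) (and (Nat.ble t K) (and (or m (Nat.ble 1 t))
    (and (smN k C)
    (cond (Nat.beq s 0)
      (and (Nat.beq (lineO (cond o 6 k.r) 6 (K + 1) (Nat.shiftRight C (Nat.mul (cond o k.r 6) q)))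
          (Nat.add (Nat.mul 32 k.E) (Nat.shiftLeft 1 (Nat.mul 6 t))))
        (force (Nat.sub C (Nat.shiftLeft 1 (Nat.add (Nat.mul (cond o 6 k.r) t)
          (Nat.mul (cond o k.r 6) q)))) kt))
      (and (Nat.beq (Nat.add (lineO (cond o 6 k.r) 6 (K + 1)
            (Nat.shiftRight C (Nat.mul (cond o k.r 6) q))) (Nat.shiftLeft 1 (Nat.mul 6 t)))
          (Nat.mul 32 k.E))
        (force (Nat.add C (Nat.shiftLeft 1 (Nat.add (Nat.mul (cond o 6 k.r) t)
          (Nat.mul (cond o k.r 6) q)))) kt))))))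

theorem shl_one (a : ℕ) : (1 : ℕ) <<< (6 * a) = 64 ^ a := by
  rw [Nat.shiftLeft_eq, one_mul, pow_mul]; norm_num

/-- orientation: the positions. -/
theorem ori {k : Cst} (hk : k.Ok K) (o : Bool) : cond o 6 k.r = 6 * cond o 1 (K + 1) ∧
    cond o k.r 6 = 6 * cond o (K + 1) 1 := by
  obtain ⟨-, -, hr, -⟩ := hk
  cases o <;> simp [hr]

/-- function of an orientation. -/
def Gf (K : ℕ) (o : Bool) (C : ℕ) : ℕ → ℕ → ℤ := fun i j => cond o (dN K C j i) (dN K C i j)

theorem isC_Gf {k : Cst} (hk : k.Ok K) {C : ℕ} (h : smN k C = true) (o : Bool) :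
    IsC (cond o 1 (K + 1)) (cond o (K + 1) 1) K (Gf K o C) C ∧
    (∀ i ≤ K, ∀ j ≤ K, -16 ≤ Gf K o C i j ∧ Gf K o C i j < 16) ∧
    ∀ i ≤ K, ∀ j ≤ K, (d64 C (cond o (K + 1) 1 * j + cond o 1 (K + 1) * i) : ℤ) - 32
      = Gf K o C i j := by
  obtain ⟨h1, h2⟩ := isC_of_smN hk h
  cases o
  · refine ⟨h1, h2, fun i _ j _ => ?_⟩
    simp only [cond_false, Gf, dN, one_mul]
    rw [add_comm]
  · refine ⟨h1.swap, fun i hi j hj => h2 j hj i hi, fun i _ j _ => ?_⟩
    simp only [cond_true, Gf, dN, one_mul]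

theorem d64_lt (C i : ℕ) : d64 C i < 64 := Nat.mod_lt _ (by norm_num)

theorem opDel_sound (hx : Good m x) {k : Cst} (hk : k.Ok K) {o : Bool} {q t s C : ℕ}
    {kt : ℕ → Bool} (h : opDel k K m o q t s C kt = true) (b : Bool) :
    ∃ C', kt C' = true ∧ (6 : ℝ) ^ (if b then 0 else 1) * pv K x b C = pv K x (!b) C' := by
  unfold opDel at h
  simp only [Bool.and_eq_true, Nat.ble_eq, Bool.or_eq_true] at h
  obtain ⟨⟨hq1, hqK⟩, htK, hm, hsm, h⟩ := h
  obtain ⟨eα, eβ⟩ := ori hk o
  obtain ⟨hI, hb, hd⟩ := isC_Gf hk hsm o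
  set α := cond o 1 (K + 1) with hα
  set β := cond o (K + 1) 1 with hβ
  have hline : lineO (cond o 6 k.r) 6 (K + 1) (Nat.shiftRight C (Nat.mul (cond o k.r 6) q))
      = ∑ i ∈ range (K + 1), d64 C (β * q + α * i) * 64 ^ i := by
    rw [eα, eβ]
    have : Nat.shiftRight C (Nat.mul (6 * β) q) = C >>> (6 * (β * q)) := by
      show C >>> (6 * β * q) = _
      rw [mul_assoc]
    rw [this, lineO_eq]
    exact Finset.sum_congr rfl fun i _ => by rw [pow_mul]; norm_num
  have hE : k.E = rep 64 (K + 1) := hk.2.1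
  obtain ⟨l1, l2⟩ := line_one hE (fun i _ => d64_lt C (β * q + α * i)) hline
    (show t < K + 1 by omega)
  have hpos : Nat.shiftLeft 1 (Nat.add (Nat.mul (cond o 6 k.r) t) (Nat.mul (cond o k.r 6) q))
      = 64 ^ (α * t + β * q) := by
    rw [eα, eβ]
    show (1 : ℕ) <<< (6 * α * t + 6 * β * q) = _
    rw [show 6 * α * t + 6 * β * q = 6 * (α * t + β * q) from by ring, shl_one]
  have hpos' : Nat.shiftLeft 1 (Nat.mul 6 t) = 64 ^ t := shl_one t
  have hm' : m = true ∨ t ≠ 0 := by
    rcases hm with h | h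
    · exact Or.inl h
    · exact Or.inr (by omega)
  have fin : ∀ C' : ℕ, (Gf K o C t q = 1 ∨ Gf K o C t q = -1) →
      (∀ i ≤ K, i ≠ t → Gf K o C i q = 0) →
      ((C' : ℤ) = C - Gf K o C t q * 64 ^ (α * t + β * q)) →
      (6 : ℝ) ^ (if b then 0 else 1) * pv K x b C = pv K x (!b) C' := by
    intro C' h1 h0 hC'
    have hI' := isC_del hI hqK htK h0 C' hC'
    have e1 := del_sound hx (Gf K o C) (q := q) (t := t) (by omega) hqK htK hm' h1 h0 b
    rw [pv_isC o hI b, pv_isC o hI' (!b)] at e1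
    exact e1
  rcases hs : Nat.beq s 0 with _ | _
  · rw [hs, cond_false, Bool.and_eq_true, Nat.beq_eq, force_eq] at h
    obtain ⟨hL, hkt⟩ := h
    refine ⟨_, hkt, fin _ ?_ ?_ ?_⟩
    · right
      have := l2 (by rw [← hpos']; exact hL) t (by omega)
      rw [if_pos rfl, hd t htK q hqK] at this
      exact this
    · intro i hi hit
      have := l2 (by rw [← hpos']; exact hL) i (by omega)
      rw [if_neg hit, hd i hi q hqK] at this
      exact this
    · have := l2 (by rw [← hpos']; exact hL) t (by omega)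
      rw [if_pos rfl, hd t htK q hqK] at this
      rw [this, hpos]
      show ((C + 64 ^ (α * t + β * q) : ℕ) : ℤ) = _
      push_cast; ring
  · rw [hs, cond_true, Bool.and_eq_true, Nat.beq_eq, force_eq] at h
    obtain ⟨hL, hkt⟩ := h
    refine ⟨_, hkt, fin _ ?_ ?_ ?_⟩
    · left
      have := l1 (by rw [← hpos']; exact hL) t (by omega)
      rw [if_pos rfl, hd t htK q hqK] at this
      exact this
    · intro i hi hit
      have := l1 (by rw [← hpos']; exact hL) i (by omega)
      rw [if_neg hit, hd i hi q hqK] at this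
      exact this
    · have h1 := l1 (by rw [← hpos']; exact hL) t (by omega)
      rw [if_pos rfl, hd t htK q hqK] at h1
      -- no truncation
      have hle : 64 ^ (α * t + β * q) ≤ C := by
        have h2 : 33 * 64 ^ (β * q + α * t) ≤ C := by
          have h3 : d64 C (β * q + α * t) = 33 := by
            have := hd t htK q hqK
            rw [h1] at this
            omega
          have h4 : d64 C (β * q + α * t) * 64 ^ (β * q + α * t) ≤ C := by
            rw [d64_eq]
            unfold dg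
            calc C / 64 ^ (β * q + α * t) % 64 * 64 ^ (β * q + α * t)
                ≤ C / 64 ^ (β * q + α * t) * 64 ^ (β * q + α * t) :=
                  Nat.mul_le_mul_right _ (Nat.mod_le _ _)
              _ ≤ C := Nat.div_mul_le_self _ _
          rw [h3] at h4
          exact h4
        rw [add_comm (α * t)]
        omega
      rw [h1, hpos]
      show ((C - 64 ^ (α * t + β * q) : ℕ) : ℤ) = _
      rw [Nat.cast_sub hle]
      push_cast; ring

/-- merging step: the line `q` is `+1` at `t0` and `-1` at `t1`; the cross line `t1` is merged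
into `t0`. -/
def opMrg (k : Cst) (E2 K : ℕ) (o : Bool) (q t0 t1 C : ℕ) : (ℕ → Bool) → Bool := fun kt =>
  and (and (Nat.ble 1 q) (Nat.ble q K)) (and (and (Nat.ble 1 t0) (Nat.ble t0 K))
    (and (and (Nat.ble 1 t1) (Nat.ble t1 K)) (and (cond (Nat.beq t0 t1) false true)
    (and (smN k C)
      (and (Nat.beq (Nat.add (lineO (cond o 6 k.r) 6 (K + 1)
            (Nat.shiftRight C (Nat.mul (cond o k.r 6) q))) (Nat.shiftLeft 1 (Nat.mul 6 t1)))
          (Nat.add (Nat.mul 32 k.E) (Nat.shiftLeft 1 (Nat.mul 6 t0))))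
        (force (lineO (cond o k.r 6) (cond o k.r 6) (K + 1)
            (Nat.shiftRight C (Nat.mul (cond o 6 k.r) t1))) fun L =>
          force (Nat.mul 32 (cond o E2 k.E)) fun Z =>
          force (Nat.add C (Nat.add (Nat.shiftLeft L (Nat.mul (cond o 6 k.r) t0))
            (Nat.shiftLeft Z (Nat.mul (cond o 6 k.r) t1)))) fun A =>
          force (Nat.add (Nat.shiftLeft L (Nat.mul (cond o 6 k.r) t1))
            (Nat.shiftLeft Z (Nat.mul (cond o 6 k.r) t0))) fun B =>
          and (Nat.ble B A) (force (Nat.sub A B) kt)))))))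

theorem opMrg_sound (hx : Good m x) {k : Cst} (hk : k.Ok K) {E2 : ℕ} (hE2 : CstE2 K E2)
    {o : Bool} {q t0 t1 C : ℕ} {kt : ℕ → Bool} (h : opMrg k E2 K o q t0 t1 C kt = true)
    (b : Bool) : ∃ C', kt C' = true ∧ (6 : ℝ) ^ 1 * pv K x b C = pv K x b C' := by
  unfold opMrg at h
  simp only [Bool.and_eq_true, Nat.ble_eq, Nat.beq_eq, force_eq] at h
  obtain ⟨⟨hq1, hqK⟩, ⟨ht0, ht0K⟩, ⟨ht1, ht1K⟩, hne, hsm, hL, hBA, hkt⟩ := h
  have hne' : t0 ≠ t1 := by
    rintro rfl
    have : Nat.beq t0 t0 = true := Nat.beq_refl t0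
    rw [this] at hne
    exact Bool.false_ne_true hne
  obtain ⟨eα, eβ⟩ := ori hk o
  obtain ⟨hI, hb, hd⟩ := isC_Gf hk hsm o
  set α := cond o 1 (K + 1) with hα
  set β := cond o (K + 1) 1 with hβ
  have hline : lineO (cond o 6 k.r) 6 (K + 1) (Nat.shiftRight C (Nat.mul (cond o k.r 6) q))
      = ∑ i ∈ range (K + 1), d64 C (β * q + α * i) * 64 ^ i := by
    rw [eα, eβ]
    have : Nat.shiftRight C (Nat.mul (6 * β) q) = C >>> (6 * (β * q)) := by
      show C >>> (6 * β * q) = _
      rw [mul_assoc]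
    rw [this, lineO_eq]
    exact Finset.sum_congr rfl fun i _ => by rw [pow_mul]; norm_num
  have hE : k.E = rep 64 (K + 1) := hk.2.1
  have hl := line_two hE (fun i _ => d64_lt C (β * q + α * i)) hline
    (show t0 < K + 1 by omega) (show t1 < K + 1 by omega) hne'
    (by
      have e0 : Nat.shiftLeft 1 (Nat.mul 6 t0) = 64 ^ t0 := shl_one t0
      have e1 : Nat.shiftLeft 1 (Nat.mul 6 t1) = 64 ^ t1 := shl_one t1
      rw [e0, e1] at hL
      exact hL)
  have hg : ∀ i ≤ K, Gf K o C i q = if i = t0 then 1 else if i = t1 then -1 else 0 := by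
    intro i hi
    rw [← hl i (by omega), hd i hi q hqK]
  -- the cross line
  set L := lineO (cond o k.r 6) (cond o k.r 6) (K + 1)
            (Nat.shiftRight C (Nat.mul (cond o 6 k.r) t1)) with hLdef
  set Z := Nat.mul 32 (cond o E2 k.E) with hZdef
  have hLv : (L : ℤ) = ∑ j ∈ range (K + 1), (Gf K o C t1 j + 32) * 64 ^ (β * j) := by
    have e1 : L = ∑ j ∈ range (K + 1), d64 C (α * t1 + β * j) * 2 ^ (6 * β * j) := by
      rw [hLdef, eα, eβ]
      have : Nat.shiftRight C (Nat.mul (6 * α) t1) = C >>> (6 * (α * t1)) := by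
        show C >>> (6 * α * t1) = _
        rw [mul_assoc]
      rw [this, lineO_eq]
    rw [e1]
    push_cast
    refine Finset.sum_congr rfl fun j hj => ?_
    have := hd t1 ht1K j (by have := Finset.mem_range.1 hj; omega)
    rw [← this, add_comm (α * t1), mul_assoc 6 β j, pow_mul]
    norm_num
  have hZv : (Z : ℤ) = ∑ j ∈ range (K + 1), 32 * (64 : ℤ) ^ (β * j) := by
    have e1 : Z = 32 * cond o E2 k.E := rfl
    rw [e1, ← Finset.mul_sum]
    push_cast
    congr 1
    rw [hβ]
    cases o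
    · simp only [cond_false, one_mul]
      rw [hE]; unfold rep; push_cast; rfl
    · simp only [cond_true]
      rw [hE2]; push_cast; rfl
  have hLZ : (L : ℤ) - Z = ∑ j ∈ range (K + 1), Gf K o C t1 j * 64 ^ (β * j) := by
    rw [hLv, hZv, ← Finset.sum_sub_distrib]
    exact Finset.sum_congr rfl fun j _ => by ring
  have hshl : ∀ X t : ℕ, Nat.shiftLeft X (Nat.mul (cond o 6 k.r) t) = X * 64 ^ (α * t) := by
    intro X t
    rw [eα]
    show X <<< (6 * α * t) = _
    rw [Nat.shiftLeft_eq, mul_assoc, pow_mul]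
    norm_num
  refine ⟨_, hkt, ?_⟩
  have hC' : (((Nat.sub (Nat.add C (Nat.add (Nat.shiftLeft L (Nat.mul (cond o 6 k.r) t0))
            (Nat.shiftLeft Z (Nat.mul (cond o 6 k.r) t1))))
        (Nat.add (Nat.shiftLeft L (Nat.mul (cond o 6 k.r) t1))
            (Nat.shiftLeft Z (Nat.mul (cond o 6 k.r) t0))) : ℕ)) : ℤ)
      = C + (∑ j ∈ range (K + 1), Gf K o C t1 j * 64 ^ (β * j))
      * (64 ^ (α * t0) - 64 ^ (α * t1)) := by
    have hle : L * 64 ^ (α * t1) + Z * 64 ^ (α * t0)
        ≤ C + (L * 64 ^ (α * t0) + Z * 64 ^ (α * t1)) := by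
      rw [← hshl, ← hshl, ← hshl, ← hshl]; exact hBA
    rw [hshl, hshl, hshl, hshl]
    change ((C + (L * 64 ^ (α * t0) + Z * 64 ^ (α * t1))
      - (L * 64 ^ (α * t1) + Z * 64 ^ (α * t0)) : ℕ) : ℤ) = _
    rw [Nat.cast_sub hle, ← hLZ]
    push_cast
    ring
  have hI' := isC_mrg hI hb ht0K ht1K hne' _ hC'
  have e1 := mrg_sound hx (Gf K o C) (q := q) (t0 := t0) (t1 := t1) (by omega) hqK (by omega) ht0K
    (by omega) ht1K hne' (by rw [hg t0 ht0K, if_pos rfl])
    (by rw [hg t1 ht1K, if_neg (Ne.symm hne'), if_pos rfl])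
    (fun i hi h0 h1 => by rw [hg i hi, if_neg h0, if_neg h1]) b
  rw [pv_isC o hI b, pv_isC o hI' b] at e1
  exact e1

/-- one step; `w` = kind (`0, 1`: deletion of column / row; `2, 3`: merging by column / row)
`+ 4 q + 32 t0 + 256 t1` (`t1` = sign for a deletion). -/
def opW (k : Cst) (E2 K : ℕ) (m : Bool) (w : ℕ) (b : Bool) (e C : ℕ)
    (kt : Bool → ℕ → ℕ → Bool) : Bool :=
  force (Nat.mod (Nat.shiftRight w 2) 8) fun q => force (Nat.mod (Nat.shiftRight w 5) 8) fun t0 =>
    force (Nat.mod (Nat.shiftRight w 8) 8) fun t1 =>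
      cond (Nat.beq (Nat.mod (Nat.shiftRight w 1) 2) 0)
        (opDel k K m (Nat.beq (Nat.mod w 2) 1) q t0 t1 C fun C' =>
          kt (cond b false true) (cond b e (Nat.succ e)) C')
        (opMrg k E2 K (Nat.beq (Nat.mod w 2) 1) q t0 t1 C fun C' => kt b (Nat.succ e) C')

theorem opW_sound (hx : Good m x) {k : Cst} (hk : k.Ok K) {E2 : ℕ} (hE2 : CstE2 K E2)
    {w : ℕ} {b : Bool} {e C : ℕ} {kt : Bool → ℕ → ℕ → Bool}
    (h : opW k E2 K m w b e C kt = true) :
    ∃ b' e' C', kt b' e' C' = true ∧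
      (6 : ℝ) ^ e' * pv K x b C = 6 ^ e * pv K x b' C' := by
  unfold opW at h
  simp only [force_eq] at h
  rcases hc : Nat.beq (Nat.mod (Nat.shiftRight w 1) 2) 0 with _ | _
  · rw [hc, cond_false] at h
    obtain ⟨C', h1, h2⟩ := opMrg_sound hx hk hE2 h b
    refine ⟨b, Nat.succ e, C', h1, ?_⟩
    rw [Nat.succ_eq_add_one, pow_succ, ← h2]; ring
  · rw [hc, cond_true] at h
    obtain ⟨C', h1, h2⟩ := opDel_sound hx hk h b
    refine ⟨cond b false true, cond b e (Nat.succ e), C', h1, ?_⟩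
    cases b
    · simp only [cond_false, Bool.false_eq_true, if_false, Bool.not_false] at h2 ⊢
      rw [Nat.succ_eq_add_one, pow_succ, ← h2]; ring
    · simp only [cond_true, if_true, Bool.not_true, pow_zero, one_mul] at h2 ⊢
      rw [h2]

/-- a script of `n` steps (11 bits each). -/
def runW (k : Cst) (E2 K : ℕ) (m : Bool) (n : ℕ) :
    ℕ → Bool → ℕ → ℕ → (Bool → ℕ → ℕ → Bool) → Bool :=
  Nat.rec (motive := fun _ => ℕ → Bool → ℕ → ℕ → (Bool → ℕ → ℕ → Bool) → Bool)
    (fun _ b e C kt => kt b e C)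
    (fun _ ih s b e C kt => opW k E2 K m (Nat.mod s 2048) b e C fun b' e' C' =>
      force (Nat.shiftRight s 11) fun s' => ih s' b' e' C' kt) n

theorem runW_sound (hx : Good m x) {k : Cst} (hk : k.Ok K) {E2 : ℕ} (hE2 : CstE2 K E2)
    {n s : ℕ} {b : Bool} {e C : ℕ} {kt : Bool → ℕ → ℕ → Bool}
    (h : runW k E2 K m n s b e C kt = true) :
    ∃ b' e' C', kt b' e' C' = true ∧
      (6 : ℝ) ^ e' * pv K x b C = 6 ^ e * pv K x b' C' := by
  induction n generalizing s b e C with
  | zero => exact ⟨b, e, C, h, rfl⟩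
  | succ n ih =>
    have h' : opW k E2 K m (Nat.mod s 2048) b e C (fun b' e' C' =>
      force (Nat.shiftRight s 11) fun s' => runW k E2 K m n s' b' e' C' kt) = true := h
    obtain ⟨b1, e1, C1, h1, h2⟩ := opW_sound hx hk hE2 h'
    rw [force_eq] at h1
    obtain ⟨b2, e2, C2, h3, h4⟩ := ih h1
    refine ⟨b2, e2, C2, h3, ?_⟩
    have h6 : (0 : ℝ) < 6 ^ e1 := by positivity
    have h5 : (6 : ℝ) ^ e1 * (6 ^ e2 * pv K x b C) = 6 ^ e1 * (6 ^ e * pv K x b2 C2) := by
      calc (6 : ℝ) ^ e1 * (6 ^ e2 * pv K x b C) = 6 ^ e2 * (6 ^ e1 * pv K x b C) := by ring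
        _ = 6 ^ e2 * (6 ^ e * pv K x b1 C1) := by rw [h2]
        _ = 6 ^ e * (6 ^ e2 * pv K x b1 C1) := by ring
        _ = 6 ^ e * (6 ^ e1 * pv K x b2 C2) := by rw [h4]
        _ = _ := by ring
    exact mul_left_cancel₀ h6.ne' h5

/-- value of a class code as a packed matrix. -/
theorem cv_pv (hx : Base x) {k : Cst} (hk : k.Ok K) {c : ℕ} (h : smN k (Nat.add c k.o32) = true)
    (b : Bool) : cv K x b c = pv K x b (c + k.o32) := by
  obtain ⟨⟨hI, hb⟩, -⟩ := isC_of_smN hk h
  have h32 := hk.2.2.2.2.2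
  have hsm : smAll K (dN K (c + k.o32)) = true := by
    simp only [smAll, allLe, List.all_eq_true, List.mem_range, Bool.and_eq_true,
      decide_eq_true_eq]
    intro i hi j hj
    have := (isC_of_smN hk h).2 i (by omega) j (by omega)
    have e : Nat.add c k.o32 = c + k.o32 := rfl
    rw [e] at this
    constructor <;> omega
  have hid : okPerm K (fun i => i) = true := by
    simp only [okPerm, Bool.and_eq_true, beq_iff_eq, allLe, List.all_eq_true, List.mem_range,
      Bool.or_eq_true, Bool.not_eq_true', beq_eq_false_iff_ne, ne_eq]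
    refine ⟨⟨trivial, fun i hi => decide_eq_true (by omega)⟩, fun i _ j _ => ?_⟩
    by_cases hij : i = j
    · exact Or.inl hij
    · exact Or.inr hij
  have hcode : pcode K (dN K (c + k.o32)) (fun i => i) (fun i => i) false = c := by
    have e : ((c + k.o32 : ℕ) : ℤ) = ∑ i ∈ range (K + 1), ∑ j ∈ range (K + 1),
        (dN K (c + k.o32) i j + 32) * 64 ^ ((K + 1) * i + 1 * j) := hI
    have e2 : (k.o32 : ℤ) = ∑ i ∈ range (K + 1), ∑ j ∈ range (K + 1),
        32 * (64 : ℤ) ^ ((K + 1) * i + 1 * j) := by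
      rw [h32, ← rep_mul 64 (K + 1) (K + 1)]
      simp only [← Finset.mul_sum, one_mul]
      push_cast; rfl
    unfold pcode
    simp only [sumR_eq, Bool.false_eq_true, if_false]
    have e3 : ∑ i ∈ range (K + 1), ∑ j ∈ range (K + 1),
        dN K (c + k.o32) i j * 64 ^ ((K + 1) * i + j)
        = ((c + k.o32 : ℕ) : ℤ) - k.o32 := by
      rw [e, e2, ← Finset.sum_sub_distrib]
      refine Finset.sum_congr rfl fun i _ => ?_
      rw [← Finset.sum_sub_distrib]
      exact Finset.sum_congr rfl fun j _ => by rw [one_mul]; ring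
    rw [e3]; push_cast; ring
  refine (recog_sound hx (σ := fun i => i) (τ := fun i => i) (t := false) ?_ b).symm
  simp only [recog, hid, hsm, Bool.and_true, Bool.true_and, Bool.or_eq_true, beq_iff_eq]
  exact Or.inl hcode

/-- One reduction record: `σ` (18 bits) `| τ` (18) `| t` (1) `|` sign of the multiplier (1) `|`
number of steps (4) `| id` (24) `| id'` (24) `|` exponent `e` (8) `|` script (11 each, 16) `| λ`. -/
noncomputable def redCk (k : Cst) (E2 K : ℕ) (m : Bool) (tr : Tr) (d : ℕ) : Bool :=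
  force (Nat.mod (Nat.shiftRight d 38) 16) fun n =>
  force (Nat.mod (Nat.shiftRight d 42) 16777216) fun i =>
  force (Nat.mod (Nat.shiftRight d 66) 16777216) fun j =>
  force (Nat.mod (Nat.shiftRight d 90) 256) fun e0 =>
  force (Nat.add (tr.get i).2 k.o32) fun C =>
    and (smN k C) (runW k E2 K m n (Nat.shiftRight d 98) (tr.get i).1 0 C fun b' e' C' =>
      and ((tr.get j).1 == b') (and (Nat.beq e' e0) (and (smN k C')
        (and (permOK K k.E (octL (K + 1) d)) (and (permOK K k.E (octL (K + 1) (Nat.shiftRight d 18)))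
          (fck k (octL (K + 1) d) (octL (K + 1) (Nat.shiftRight d 18))
            (Nat.beq (Nat.mod (Nat.shiftRight d 36) 2) 1) C' (tr.get j).2))))))

/-- fields of a record. -/
def rI (d : ℕ) : ℕ := Nat.mod (Nat.shiftRight d 42) 16777216
/-- second class. -/
def rJ (d : ℕ) : ℕ := Nat.mod (Nat.shiftRight d 66) 16777216
/-- exponent. -/
def rE (d : ℕ) : ℕ := Nat.mod (Nat.shiftRight d 90) 256

theorem redCk_sound (hx : Good m x) {k : Cst} (hk : k.Ok K) {E2 : ℕ} (hE2 : CstE2 K E2) {tr : Tr}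
    {d : ℕ} (h : redCk k E2 K m tr d = true) :
    (6 : ℝ) ^ rE d * vl K x tr (rI d) = vl K x tr (rJ d) := by
  unfold redCk at h
  simp only [force_eq, Bool.and_eq_true] at h
  obtain ⟨h1, h2⟩ := h
  obtain ⟨b', e', C', h3, h4⟩ := runW_sound hx hk hE2 h2
  simp only [Bool.and_eq_true, beq_iff_eq, Nat.beq_eq] at h3
  obtain ⟨hb, he, hs, hp, hp', hf⟩ := h3
  have e1 : cv K x (tr.get (rI d)).1 ((tr.get (rI d)).2 : ℕ)
      = pv K x (tr.get (rI d)).1 ((tr.get (rI d)).2 + k.o32) := cv_pv hx.1 hk h1 _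
  have e2 := fck_sound hx.1 hk hs hp hp' hf b'
  have hb' : (tr.get (rJ d)).1 = b' := hb
  have he' : e' = rE d := he
  have e2' : pv K x b' C' = cv K x b' ((tr.get (rJ d)).2 : ℕ) := e2
  have h4' : (6 : ℝ) ^ e' * pv K x (tr.get (rI d)).1 ((tr.get (rI d)).2 + k.o32)
      = 6 ^ 0 * pv K x b' C' := h4
  unfold vl
  rw [e1, hb', ← e2', ← he', h4', pow_zero, one_mul]

/-! ### Lists of records -/

/-- multiplier of a record. -/
def rL (d : ℕ) : ℕ := Nat.shiftRight d 274

/-- position and coefficient of a record on one side. -/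
def rT (W : ℕ) (side : Bool) (d : ℕ) : ℕ :=
  cond (xor (Nat.beq (Nat.mod (Nat.shiftRight d 37) 2) 1) side)
    (Nat.shiftLeft (rL d) (Nat.mul W (rJ d)))
    (Nat.shiftLeft (Nat.mul (rL d) (Nat.pow 6 (rE d))) (Nat.mul W (rI d)))

/-- accumulation. -/
def rdA (W : ℕ) (side : Bool) (rs : List ℕ) : ℕ → ℕ → ℕ :=
  List.rec (motive := fun _ => ℕ → ℕ → ℕ) (fun _ acc => acc)
    (fun d _ ih n acc => force (Nat.succ n) fun n' => cond (Nat.beq (Nat.mod n 32) 0)
      (force (Nat.add acc (rT W side d)) fun a => ih n' a) (ih n' (Nat.add acc (rT W side d)))) rs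

/-- sum of the coefficients. -/
def rdM (rs : List ℕ) : ℕ → ℕ :=
  List.rec (motive := fun _ => ℕ → ℕ) (fun acc => acc)
    (fun d _ ih acc => force (Nat.add acc (Nat.mul (rL d) (Nat.pow 6 (rE d)))) fun a => ih a) rs

/-- check of all records. -/
noncomputable def rdCk (k : Cst) (E2 K : ℕ) (m : Bool) (tr : Tr) (rs : List ℕ) : Bool :=
  List.rec (motive := fun _ => Bool) true (fun d _ ih => and (redCk k E2 K m tr d) ih) rs

theorem rT_rep (hx : Good m x) {k : Cst} (hk : k.Ok K) {E2 : ℕ} (hE2 : CstE2 K E2) {tr : Tr}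
    {d : ℕ} (h : redCk k E2 K m tr d = true) (side : Bool) :
    NRep W (vl K x tr) (rT W side d) (rL d * 6 ^ rE d) ((rL d : ℝ) * vl K x tr (rJ d)) := by
  have h1 := redCk_sound hx hk hE2 h
  unfold rT
  cases xor (Nat.beq (Nat.mod (Nat.shiftRight d 37) 2) 1) side
  · rw [cond_false]
    have h2 := NRep.single (W := W) (val := vl K x tr) (rL d * 6 ^ rE d) (rI d)
    have h3 : ((rL d * 6 ^ rE d : ℕ) : ℝ) * vl K x tr (rI d) = (rL d : ℝ) * vl K x tr (rJ d) := by
      rw [← h1]; push_cast; ring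
    rw [h3] at h2
    exact h2
  · rw [cond_true]
    exact (NRep.single (W := W) (val := vl K x tr) (rL d) (rJ d)).mono
      (Nat.le_mul_of_pos_right _ (by positivity))

theorem rdA_spec (hx : Good m x) {k : Cst} (hk : k.Ok K) {E2 : ℕ} (hE2 : CstE2 K E2) {tr : Tr}
    {rs : List ℕ} (h : rdCk k E2 K m tr rs = true) (side : Bool) (n acc M : ℕ) (v : ℝ)
    (hv : NRep W (vl K x tr) acc M v) :
    NRep W (vl K x tr) (rdA W side rs n acc) (rdM rs M)
      (v + (rs.map fun d => (rL d : ℝ) * vl K x tr (rJ d)).sum) := by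
  induction rs generalizing n acc M v with
  | nil => simpa [rdA, rdM] using hv
  | cons d rs ih =>
    have e1 : rdA W side (d :: rs) n acc = (force (Nat.succ n) fun n' =>
      cond (Nat.beq (Nat.mod n 32) 0)
      (force (Nat.add acc (rT W side d)) fun a => rdA W side rs n' a)
      (rdA W side rs n' (Nat.add acc (rT W side d)))) := rfl
    have e2 : rdM (d :: rs) M
        = (force (Nat.add M (Nat.mul (rL d) (Nat.pow 6 (rE d)))) fun a => rdM rs a) := rfl
    have e3 : rdCk k E2 K m tr (d :: rs) = (redCk k E2 K m tr d && rdCk k E2 K m tr rs) := rfl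
    rw [e3, Bool.and_eq_true] at h
    have h1 := hv.add (rT_rep (W := W) hx hk hE2 h.1 side)
    have h2 := ih h.2 (n + 1) _ _ _ h1
    rw [e2, force_eq]
    have e4 : rdA W side (d :: rs) n acc = rdA W side rs (n + 1) (acc + rT W side d) := by
      rw [e1]
      simp only [force_eq]
      cases Nat.beq (Nat.mod n 32) 0 <;> rfl
    rw [e4, List.map_cons, List.sum_cons, ← add_assoc]
    exact h2

/-- **Packed reductions.** -/
theorem relPack_red (hx : Good m x) {k : Cst} (hk : k.Ok K) {E2 : ℕ} (hE2 : CstE2 K E2) {tr : Tr}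
    {rs : List ℕ} {P Q M : ℕ} (h : rdCk k E2 K m tr rs = true)
    (hP : Nat.beq (rdA W false rs 0 0) P = true) (hQ : Nat.beq (rdA W true rs 0 0) Q = true)
    (hM : Nat.ble (rdM rs 0) M = true) : RelPack W (vl K x tr) P Q M := by
  have hP := Nat.eq_of_beq_eq_true hP
  have hQ := Nat.eq_of_beq_eq_true hQ
  have hM := Nat.le_of_ble_eq_true hM
  have r1 := rdA_spec (W := W) hx hk hE2 h false 0 0 0 0 NRep.zero
  have r2 := rdA_spec (W := W) hx hk hE2 h true 0 0 0 0 NRep.zero
  rw [hP] at r1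
  rw [hQ] at r2
  exact ⟨_, r1.mono hM, r2.mono hM⟩

end Vale.Agent.P355.H138
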