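import Vale.Agent.P355.H138.Table
import Vale.Agent.P355.H129.Lin

/-! Fast recognition of packed graphs: the exponent matrix `n` (indices `0..K`, index `0` the mark)
is stored as `C = ∑ (n i j + 32) 64 ^ ((K + 1) i + j)`. -/

namespace Vale.Agent.P355.H138

open Finset
open Vale.Agent.P355.H129 (force force_eq dg rep sub sub_spec dg_sum sum_lt sum_dg)

set_option linter.unusedSectionVars false

variable {x : Fin 7 → Fin 7 → ℂ} {K : ℕ}

/-- digit `k` of a packed matrix. -/
def d64 (C k : ℕ) : ℕ := (C >>> (6 * k)) % 64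

theorem d64_eq (C k : ℕ) : d64 C k = dg 64 C k := by
  unfold d64 dg
  rw [Nat.shiftRight_eq_div_pow, pow_mul]
  norm_num

/-- entries of a packed matrix. -/
def dN (K C : ℕ) (i j : ℕ) : ℤ := (d64 C ((K + 1) * i + j) : ℤ) - 32

/-- value of a packed matrix. -/
noncomputable def pv (K : ℕ) (x : Fin 7 → Fin 7 → ℂ) (b : Bool) (C : ℕ) : ℝ :=
  rv x b (Mf K (dN K C))

/-! ### The permuted code -/

/-- `∑_j (digit j of R) 2 ^ (w τ_j)`. -/
def rowC (w : ℕ) (τ : List ℕ) : ℕ → ℕ :=
  List.rec (motive := fun _ => ℕ → ℕ) (fun _ => 0)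
    (fun t _ ih R => Nat.add (Nat.shiftLeft (Nat.mod R 64) (Nat.mul w t))
      (ih (Nat.shiftRight R 6))) τ

/-- `∑_i ∑_j (digit (i, j) of C) 2 ^ (w' σ_i + w τ_j)`; `r = 6 (K + 1)`. -/
def matC (r w w' : ℕ) (τ σ : List ℕ) : ℕ → ℕ :=
  List.rec (motive := fun _ => ℕ → ℕ) (fun _ => 0)
    (fun s _ ih C => Nat.add (Nat.shiftLeft (rowC w τ C) (Nat.mul w' s))
      (ih (Nat.shiftRight C r))) σ

theorem d64_shift (C a k : ℕ) : d64 (C >>> (6 * a)) k = d64 C (a + k) := by
  unfold d64
  rw [← Nat.shiftRight_add, Nat.mul_add]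

theorem rowC_eq (w : ℕ) (τ : List ℕ) (R : ℕ) :
    rowC w τ R = ∑ j ∈ range τ.length, d64 R j * 2 ^ (w * τ.getD j 0) := by
  induction τ generalizing R with
  | nil => rfl
  | cons t τ ih =>
    have e1 : rowC w (t :: τ) R = (R % 64) <<< (w * t) + rowC w τ (R >>> 6) := rfl
    rw [e1, ih, List.length_cons, Finset.sum_range_succ', add_comm, Nat.shiftLeft_eq]
    congr 1
    refine Finset.sum_congr rfl fun j _ => ?_
    have := d64_shift R 1 j
    rw [mul_one, add_comm 1 j] at this
    rw [this]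
    simp

theorem matC_eq (r w w' : ℕ) (τ σ : List ℕ) (C k : ℕ) (hr : r = 6 * k) :
    matC r w w' τ σ C = ∑ i ∈ range σ.length, ∑ j ∈ range τ.length,
      d64 C (k * i + j) * 2 ^ (w' * σ.getD i 0 + w * τ.getD j 0) := by
  subst hr
  induction σ generalizing C with
  | nil => rfl
  | cons s σ ih =>
    have e1 : matC (6 * k) w w' τ (s :: σ) C
      = (rowC w τ C) <<< (w' * s) + matC (6 * k) w w' τ σ (C >>> (6 * k)) := rfl
    rw [e1, ih, List.length_cons, Finset.sum_range_succ', add_comm, Nat.shiftLeft_eq, rowC_eq]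
    congr 1
    · refine Finset.sum_congr rfl fun i _ => Finset.sum_congr rfl fun j _ => ?_
      rw [d64_shift, show k + (k * i + j) = k * (i + 1) + j from by ring]
      simp
    · rw [Finset.sum_mul]
      refine Finset.sum_congr rfl fun j _ => ?_
      simp only [mul_zero, zero_add, List.getD_cons_zero]
      rw [pow_add]; ring

/-! ### Permutations -/

/-- `∑ 64 ^ σ_i`. -/
def powS (σ : List ℕ) : ℕ :=
  List.rec (motive := fun _ => ℕ) 0 (fun s _ ih => Nat.add (Nat.shiftLeft 1 (Nat.mul 6 s)) ih) σ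

theorem powS_eq (σ : List ℕ) : powS σ = ∑ i ∈ range σ.length, 64 ^ σ.getD i 0 := by
  induction σ with
  | nil => rfl
  | cons s σ ih =>
    have e1 : powS (s :: σ) = 1 <<< (6 * s) + powS σ := rfl
    rw [e1, ih, List.length_cons, Finset.sum_range_succ', add_comm, Nat.shiftLeft_eq, one_mul,
      pow_mul]
    norm_num

/-- a sum of `n` powers of `64` equal to `1 + 64 + ... + 64 ^ (n - 1)` is a permutation. -/
theorem perm_of_powS {n : ℕ} (hn : n < 64) (σ : ℕ → ℕ)
    (h : ∑ i ∈ range n, 64 ^ σ i = rep 64 n) :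
    (∀ i < n, σ i < n) ∧ ∀ i < n, ∀ j < n, σ i = σ j → i = j := by
  obtain ⟨N, hN⟩ : ∃ N, ∀ i < n, σ i < N := by
    refine ⟨∑ i ∈ range n, (σ i + 1), fun i hi => ?_⟩
    have := Finset.single_le_sum (f := fun i => σ i + 1) (fun _ _ => Nat.zero_le _)
      (Finset.mem_range.2 hi)
    omega
  set m : ℕ → ℕ := fun k => ((range n).filter fun i => σ i = k).card with hm
  have hmle : ∀ k, m k ≤ n := fun k => by
    have := Finset.card_filter_le (range n) fun i => σ i = k
    rw [Finset.card_range] at this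
    exact this
  have e1 : ∑ i ∈ range n, 64 ^ σ i = ∑ k ∈ range (N + n), m k * 64 ^ k := by
    have : ∀ i ∈ range n, 64 ^ σ i = ∑ k ∈ range (N + n), if σ i = k then 64 ^ k else 0 := by
      intro i hi
      rw [Finset.sum_ite_eq, if_pos]
      exact Finset.mem_range.2 (by have := hN i (Finset.mem_range.1 hi); omega)
    rw [Finset.sum_congr rfl this, Finset.sum_comm]
    refine Finset.sum_congr rfl fun k _ => ?_
    rw [← Finset.sum_filter, Finset.sum_const, smul_eq_mul]
  have e2 : rep 64 n = ∑ k ∈ range (N + n), (if k < n then 1 else 0) * 64 ^ k := by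
    unfold rep
    rw [add_comm N n, Finset.sum_range_add]
    have z : ∑ k ∈ range N, (if n + k < n then 1 else 0) * 64 ^ (n + k) = 0 :=
      Finset.sum_eq_zero fun k _ => by simp
    rw [z, add_zero]
    exact Finset.sum_congr rfl fun k hk => by simp [Finset.mem_range.1 hk]
  have key : ∀ k < N + n, m k = if k < n then 1 else 0 := by
    intro k hk
    have d1 := dg_sum (B := 64) hk (fun j _ => lt_of_le_of_lt (hmle j) hn)
    have d2 := dg_sum (B := 64) (f := fun k => if k < n then 1 else 0) hk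
      (fun j _ => by split_ifs <;> norm_num)
    rw [← d1, ← e1, h, e2, d2]
  have hmem : ∀ i < n, i ∈ (range n).filter fun i' => σ i' = σ i := fun i hi =>
    Finset.mem_filter.2 ⟨Finset.mem_range.2 hi, rfl⟩
  have hlt : ∀ i < n, σ i < n := by
    intro i hi
    by_contra hcon
    have h1 := key (σ i) (by have := hN i hi; omega)
    rw [if_neg hcon] at h1
    have h2 : 0 < m (σ i) := Finset.card_pos.2 ⟨i, hmem i hi⟩
    omega
  refine ⟨hlt, fun i hi j hj hij => ?_⟩
  have h1 := key (σ i) (by have := hN i hi; omega)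
  rw [if_pos (hlt i hi)] at h1
  have h2 := Finset.card_le_one.1 (le_of_eq h1) i (hmem i hi) j
    (by rw [hij]; exact hmem j hj)
  exact h2

/-- sums over a permutation. -/
theorem sum_perm {n : ℕ} (σ : ℕ → ℕ) (h1 : ∀ i < n, σ i < n)
    (h2 : ∀ i < n, ∀ j < n, σ i = σ j → i = j) (F : ℕ → ℕ) :
    ∑ i ∈ range n, F (σ i) = ∑ i ∈ range n, F i := by
  have himg : (range n).image σ = range n := by
    apply Finset.eq_of_subset_of_card_le
    · intro k hk
      obtain ⟨i, hi, rfl⟩ := Finset.mem_image.1 hk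
      exact Finset.mem_range.2 (h1 i (Finset.mem_range.1 hi))
    · rw [Finset.card_image_of_injOn]
      intro i hi j hj hij
      exact h2 i (Finset.mem_range.1 hi) j (Finset.mem_range.1 hj) hij
  conv_rhs => rw [← himg]
  rw [Finset.sum_image]
  intro i hi j hj hij
  exact h2 i (Finset.mem_range.1 hi) j (Finset.mem_range.1 hj) hij

/-- the double repunit. -/
theorem rep_mul (B k n : ℕ) : ∑ i ∈ range n, ∑ j ∈ range k, B ^ (k * i + j) = rep B (k * n) := by
  induction n with
  | zero => simp [rep]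
  | succ n ih =>
    rw [Finset.sum_range_succ, ih, Nat.mul_succ]
    unfold rep
    rw [Finset.sum_range_add]

/-- placement check: a permutation of `0..K` fixing `0`. -/
def permOK (K E : ℕ) (σ : List ℕ) : Bool :=
  Nat.beq (List.rec (motive := fun _ => ℕ) 1 (fun s _ _ => s) σ) 0 &&
    Nat.beq (List.rec (motive := fun _ => ℕ) 0 (fun _ _ ih => Nat.succ ih) σ) (K + 1) &&
    Nat.beq (powS σ) E

theorem permOK_spec {K E : ℕ} {σ : List ℕ} (hK : K + 1 < 64) (hE : E = rep 64 (K + 1))
    (h : permOK K E σ = true) : σ.length = K + 1 ∧ σ.getD 0 0 = 0 ∧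
      (∀ i < K + 1, σ.getD i 0 < K + 1) ∧
      ∀ i < K + 1, ∀ j < K + 1, σ.getD i 0 = σ.getD j 0 → i = j := by
  unfold permOK at h
  simp only [Bool.and_eq_true, Nat.beq_eq] at h
  obtain ⟨⟨h1, h2⟩, h3⟩ := h
  have hlen : ∀ l : List ℕ, (List.rec (motive := fun _ => ℕ) 0 (fun _ _ ih => Nat.succ ih) l : ℕ)
      = l.length := by
    intro l
    induction l with
    | nil => rfl
    | cons a l ih => rw [List.length_cons, ← ih]
  rw [hlen] at h2
  rw [powS_eq, h2, hE] at h3
  have h4 := perm_of_powS hK (fun i => σ.getD i 0) h3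
  refine ⟨h2, ?_, h4⟩
  cases σ with
  | nil => simp at h2
  | cons s σ => simpa using h1

theorem okPerm_of {K : ℕ} {σ : List ℕ} (h0 : σ.getD 0 0 = 0)
    (h1 : ∀ i < K + 1, σ.getD i 0 < K + 1)
    (h2 : ∀ i < K + 1, ∀ j < K + 1, σ.getD i 0 = σ.getD j 0 → i = j) :
    okPerm K (pOf σ) = true := by
  simp only [okPerm, Bool.and_eq_true, beq_iff_eq, allLe, List.all_eq_true, List.mem_range, Bool.or_eq_true, Bool.not_eq_true', beq_eq_false_iff_ne, ne_eq, pOf]
  refine ⟨⟨h0, fun i hi => ?_⟩, fun i hi j hj => ?_⟩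
  · have := h1 i hi
    exact decide_eq_true (show σ.getD i 0 ≤ K by omega)
  by_cases hij : i = j
  · exact Or.inl hij
  · exact Or.inr fun h => hij (h2 i hi j hj h)

/-! ### The check -/

/-- constants of the grid `K`: `rep 64 (K+1)`, `6 (K+1)`, `16 rep`, `31 rep`, `32 rep` (`rep` with
`(K+1)^2` digits). -/
structure Cst where
  E : ℕ
  r : ℕ
  o16 : ℕ
  m31 : ℕ
  o32 : ℕ

/-- correctness of the constants. -/
def Cst.Ok (K : ℕ) (c : Cst) : Prop :=
  K + 1 < 64 ∧ c.E = rep 64 (K + 1) ∧ c.r = 6 * (K + 1) ∧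
    c.o16 = 16 * rep 64 ((K + 1) * (K + 1)) ∧ c.m31 = 31 * rep 64 ((K + 1) * (K + 1)) ∧
    c.o32 = 32 * rep 64 ((K + 1) * (K + 1))

/-- all entries are between `-16` and `15`. -/
def smN (k : Cst) (C : ℕ) : Bool := Nat.ble k.o16 C && sub k.m31 (Nat.sub C k.o16)

theorem smN_spec {k : Cst} (hk : k.Ok K) {C : ℕ} (h : smN k C = true) :
    C < 64 ^ ((K + 1) * (K + 1)) ∧
    ∀ i < (K + 1) * (K + 1), 16 ≤ d64 C i ∧ d64 C i < 48 := by
  obtain ⟨-, -, -, h16, h31, -⟩ := hk
  unfold smN at h
  simp only [Bool.and_eq_true, Nat.ble_eq] at h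
  obtain ⟨h1, h2⟩ := h
  set n := (K + 1) * (K + 1) with hn
  obtain ⟨X, hX⟩ : ∃ X, X = C - k.o16 := ⟨_, rfl⟩
  change sub k.m31 (C - k.o16) = true at h2
  rw [← hX, h31, show (31 : ℕ) = 2 ^ 5 - 1 from rfl, show (64 : ℕ) = 2 ^ 6 from rfl] at h2
  obtain ⟨hlt, hd⟩ := sub_spec (by norm_num : 5 ≤ 6) n X h2
  rw [show (2 : ℕ) ^ 6 = 64 from rfl] at hlt hd
  have hC : C = ∑ j ∈ range n, (dg 64 X j + 16) * 64 ^ j := by
    have e1 : C = X + k.o16 := by omega
    rw [e1, h16]
    have e2 : ∑ j ∈ range n, (dg 64 X j + 16) * 64 ^ j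
        = ∑ j ∈ range n, dg 64 X j * 64 ^ j + 16 * rep 64 n := by
      unfold rep
      rw [Finset.mul_sum, ← Finset.sum_add_distrib]
      exact Finset.sum_congr rfl fun j _ => by ring
    rw [e2, sum_dg (by norm_num) n X hlt]
  have hb : ∀ j < n, dg 64 X j + 16 < 64 := fun j _ => by
    have := hd j; norm_num at this; omega
  refine ⟨?_, fun i hi => ?_⟩
  · rw [hC]; exact sum_lt n _ hb
  · rw [d64_eq, hC, dg_sum hi hb]
    have := hd i
    norm_num at this
    omega

/-- recognition: the packed matrix `C` placed by `σ`, `τ` (transposed if `t`) has code `± c`. -/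
def fck (k : Cst) (σ τ : List ℕ) (t : Bool) (C c : ℕ) : Bool :=
  force (matC k.r (cond t k.r 6) (cond t 6 k.r) τ σ C) fun M =>
    cond (Nat.beq M (Nat.add c k.o32)) true (Nat.beq (Nat.add M c) k.o32)

theorem fck_sound (hx : Base x) {k : Cst} (hk : k.Ok K) {σ τ : List ℕ} {t : Bool} {C c : ℕ}
    (hC : smN k C = true) (hσ : permOK K k.E σ = true) (hτ : permOK K k.E τ = true)
    (h : fck k σ τ t C c = true) (b : Bool) : pv K x b C = cv K x b c := by
  obtain ⟨-, hd⟩ := smN_spec hk hC
  obtain ⟨hK, hE, hr, -, -, h32⟩ := hk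
  obtain ⟨lσ, s0, s1, s2⟩ := permOK_spec hK hE hσ
  obtain ⟨lτ, t0, t1, t2⟩ := permOK_spec hK hE hτ
  have hσ' := okPerm_of s0 s1 s2
  have hτ' := okPerm_of t0 t1 t2
  have hidx : ∀ i j, i ≤ K → j ≤ K → (K + 1) * i + j < (K + 1) * (K + 1) := by
    intro i j hi hj; nlinarith
  have hsm : smAll K (dN K C) = true := by
    simp only [smAll, allLe, List.all_eq_true, List.mem_range, Bool.and_eq_true,
      decide_eq_true_eq]
    intro i hi j hj
    have := hd _ (hidx i j (by omega) (by omega))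
    unfold dN
    constructor <;> omega
  -- the code
  have hcode : (matC k.r (cond t k.r 6) (cond t 6 k.r) τ σ C : ℤ)
      = pcode K (dN K C) (pOf σ) (pOf τ) t + k.o32 := by
    rw [matC_eq k.r _ _ τ σ C (K + 1) hr, lσ, lτ]
    have e1 : (k.o32 : ℤ) = ∑ i ∈ range (K + 1), ∑ j ∈ range (K + 1), (32 : ℤ) *
        2 ^ (cond t 6 k.r * σ.getD i 0 + cond t k.r 6 * τ.getD j 0) := by
      have e2 : k.o32 = ∑ i ∈ range (K + 1), ∑ j ∈ range (K + 1), 32 *
          2 ^ (cond t 6 k.r * σ.getD i 0 + cond t k.r 6 * τ.getD j 0) := by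
        rw [h32, ← rep_mul 64 (K + 1) (K + 1)]
        simp only [← Finset.mul_sum]
        congr 1
        cases t
        · simp only [cond_false, hr]
          have : ∀ a b : ℕ, 2 ^ (6 * (K + 1) * a + 6 * b) = 64 ^ ((K + 1) * a + b) := by
            intro a b
            rw [show 6 * (K + 1) * a + 6 * b = 6 * ((K + 1) * a + b) from by ring, pow_mul]
            norm_num
          simp only [this]
          rw [sum_perm (fun i => σ.getD i 0) s1 s2
            (fun a => ∑ j ∈ range (K + 1), 64 ^ ((K + 1) * a + τ.getD j 0))]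
          exact Finset.sum_congr rfl fun a _ =>
            (sum_perm (fun j => τ.getD j 0) t1 t2 (fun b => 64 ^ ((K + 1) * a + b))).symm
        · simp only [cond_true, hr]
          have : ∀ a b : ℕ, 2 ^ (6 * a + 6 * (K + 1) * b) = 64 ^ ((K + 1) * b + a) := by
            intro a b
            rw [show 6 * a + 6 * (K + 1) * b = 6 * ((K + 1) * b + a) from by ring, pow_mul]
            norm_num
          simp only [this]
          rw [sum_perm (fun i => σ.getD i 0) s1 s2
            (fun a => ∑ j ∈ range (K + 1), 64 ^ ((K + 1) * τ.getD j 0 + a))]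
          conv_rhs => rw [Finset.sum_comm]
          exact (sum_perm (fun j => τ.getD j 0) t1 t2
            (fun b => ∑ a ∈ range (K + 1), 64 ^ ((K + 1) * b + a))).symm
      rw [e2]; push_cast; rfl
    rw [e1]
    unfold pcode
    simp only [sumR_eq]
    push_cast
    rw [← Finset.sum_add_distrib]
    refine Finset.sum_congr rfl fun i hi => ?_
    rw [← Finset.sum_add_distrib]
    refine Finset.sum_congr rfl fun j hj => ?_
    have hpow : (2 : ℤ) ^ (cond t 6 k.r * σ.getD i 0 + cond t k.r 6 * τ.getD j 0)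
        = 64 ^ (if t then (K + 1) * pOf τ j + pOf σ i else (K + 1) * pOf σ i + pOf τ j) := by
      unfold pOf
      cases t
      · simp only [cond_false, Bool.false_eq_true, if_false, hr]
        rw [show 6 * (K + 1) * σ.getD i 0 + 6 * τ.getD j 0
          = 6 * ((K + 1) * σ.getD i 0 + τ.getD j 0) from by ring, pow_mul]
        norm_num
      · simp only [cond_true, if_true, hr]
        rw [show 6 * σ.getD i 0 + 6 * (K + 1) * τ.getD j 0
          = 6 * ((K + 1) * τ.getD j 0 + σ.getD i 0) from by ring, pow_mul]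
        norm_num
    rw [hpow]
    unfold dN
    ring
  have hfin : pcode K (dN K C) (pOf σ) (pOf τ) t = c ∨ pcode K (dN K C) (pOf σ) (pOf τ) t = -c := by
    unfold fck at h
    rw [force_eq] at h
    set M := matC k.r (cond t k.r 6) (cond t 6 k.r) τ σ C with hM
    rcases hb : Nat.beq M (Nat.add c k.o32) with _ | _
    · rw [hb, cond_false, Nat.beq_eq] at h
      right
      have : (M : ℤ) + c = k.o32 := by exact_mod_cast h
      linarith
    · left
      have h5 : M = c + k.o32 := Nat.eq_of_beq_eq_true hb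
      have : (M : ℤ) = c + k.o32 := by exact_mod_cast h5
      linarith
  refine recog_sound hx (σ := pOf σ) (τ := pOf τ) (t := t) ?_ b
  simp only [recog, hσ', hτ', hsm, Bool.and_true, Bool.true_and, Bool.or_eq_true, beq_iff_eq]
  exact hfin

end Vale.Agent.P355.H138
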