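import Vale.Agent.P355.H138.FRed

/-! Reduction and recognition of a graph given by packed columns. -/

namespace Vale.Agent.P355.H138

open Finset
open Vale.Agent.P355.H129 (force force_eq dg rep sub sub_spec dg_sum sum_lt sum_dg NRep RelPack)

set_option linter.unusedSectionVars false

variable {x : Fin 7 → Fin 7 → ℂ} {K W : ℕ} {m : Bool}

/-- `[s, s + 1, ..., s + n - 1]`. -/
def iotaL (n : ℕ) : ℕ → List ℕ :=
  Nat.rec (motive := fun _ => ℕ → List ℕ) (fun _ => [])
    (fun _ ih s => List.cons s (force (Nat.succ s) fun s' => ih s')) n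

theorem iotaL_length (n s : ℕ) : (iotaL n s).length = n := by
  induction n generalizing s with
  | zero => rfl
  | succ n ih =>
    have e : iotaL (n + 1) s = s :: (force (Nat.succ s) fun s' => iotaL n s') := rfl
    rw [e, force_eq, List.length_cons, ih]

theorem iotaL_getD (n s i : ℕ) (hi : i < n) : (iotaL n s).getD i 0 = s + i := by
  induction n generalizing s i with
  | zero => omega
  | succ n ih =>
    have e : iotaL (n + 1) s = s :: (force (Nat.succ s) fun s' => iotaL n s') := rfl
    rw [e, force_eq]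
    cases i with
    | zero => simp
    | succ i =>
      rw [List.getD_cons_succ, ih (Nat.succ s) i (by omega)]
      omega

/-- packed matrix of a list of packed columns. -/
def pkC (k : Cst) (K : ℕ) (cols : List ℕ) : ℕ :=
  Nat.sub (Nat.add (colC k.r (iotaL 5 0) 6 cols (iotaL (K + 1) 0)) k.o32)
    (Nat.mul 32 (Nat.mul (powW k.r (iotaL 5 0)) (powT 6 cols (iotaL (K + 1) 0))))

theorem fE_bounds {cols : List ℕ} (hC : smCs cols = true) (i j : ℕ) :
    -16 ≤ fE cols i j ∧ fE cols i j < 16 := by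
  unfold fE
  split_ifs with hi
  · by_cases hj : j < cols.length
    · have := smC_spec (smCs_spec hC j hj) i hi
      omega
    · rw [List.getD_eq_default _ _ (not_lt.1 hj), d64_Zc i hi]; norm_num
  · norm_num

theorem fE_ge {cols : List ℕ} {j : ℕ} (hj : cols.length ≤ j) (i : ℕ) : fE cols i j = 0 := by
  unfold fE
  split_ifs with hi
  · rw [List.getD_eq_default _ _ hj, d64_Zc i hi]; norm_num
  · rfl

theorem pkC_isC {k : Cst} (hk : k.Ok K) {cols : List ℕ} (hC : smCs cols = true)
    (hlen : cols.length ≤ K + 1) (hK5 : 5 ≤ K + 1) : IsC (K + 1) 1 K (fE cols) (pkC k K cols) := by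
  obtain ⟨hK, hE, hr, -, -, h32⟩ := hk
  refine ⟨?_, fun i _ j _ => by have := fE_bounds hC i j; omega⟩
  have hlenτ : cols.length ≤ (iotaL (K + 1) 0).length := by rw [iotaL_length]; exact hlen
  have eA : colC k.r (iotaL 5 0) 6 cols (iotaL (K + 1) 0)
      = ∑ j ∈ range cols.length, ∑ i ∈ range 5,
        d64 (cols.getD j Zc) i * 64 ^ ((K + 1) * i + 1 * j) := by
    rw [colC_eq _ _ _ _ _ hlenτ, iotaL_length]
    refine Finset.sum_congr rfl fun j hj => Finset.sum_congr rfl fun i hi => ?_
    rw [iotaL_getD 5 0 i (Finset.mem_range.1 hi), iotaL_getD (K + 1) 0 j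
      (by have := Finset.mem_range.1 hj; omega), hr,
      show 6 * (K + 1) * (0 + i) + 6 * (0 + j) = 6 * ((K + 1) * i + 1 * j) from by ring, pow_mul]
    norm_num
  have eB : Nat.mul 32 (Nat.mul (powW k.r (iotaL 5 0)) (powT 6 cols (iotaL (K + 1) 0)))
      = ∑ j ∈ range cols.length, ∑ i ∈ range 5, 32 * 64 ^ ((K + 1) * i + 1 * j) := by
    change 32 * (powW k.r (iotaL 5 0) * powT 6 cols (iotaL (K + 1) 0)) = _
    rw [powW_eq, powT_eq _ _ _ hlenτ, iotaL_length, Finset.sum_mul_sum, Finset.sum_comm,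
      Finset.mul_sum]
    refine Finset.sum_congr rfl fun j hj => ?_
    rw [Finset.mul_sum]
    refine Finset.sum_congr rfl fun i hi => ?_
    rw [iotaL_getD 5 0 i (Finset.mem_range.1 hi), iotaL_getD (K + 1) 0 j
      (by have := Finset.mem_range.1 hj; omega), hr, ← pow_add,
      show 6 * (K + 1) * (0 + i) + 6 * (0 + j) = 6 * ((K + 1) * i + 1 * j) from by ring, pow_mul]
    norm_num
  have e32 : k.o32 = ∑ i ∈ range (K + 1), ∑ j ∈ range (K + 1), 32 * 64 ^ ((K + 1) * i + 1 * j) := by
    rw [h32, ← rep_mul 64 (K + 1) (K + 1)]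
    simp only [← Finset.mul_sum, one_mul]
  have hle : Nat.mul 32 (Nat.mul (powW k.r (iotaL 5 0)) (powT 6 cols (iotaL (K + 1) 0)))
      ≤ Nat.add (colC k.r (iotaL 5 0) 6 cols (iotaL (K + 1) 0)) k.o32 := by
    refine le_trans ?_ (Nat.le_add_left _ _)
    rw [eB, e32, Finset.sum_comm]
    refine (Finset.sum_le_sum_of_subset (Finset.range_subset_range.2 hK5)).trans ?_
    refine Finset.sum_le_sum fun i _ => ?_
    exact Finset.sum_le_sum_of_subset (Finset.range_subset_range.2 hlen)
  unfold pkC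
  have e1 : ((Nat.sub (Nat.add (colC k.r (iotaL 5 0) 6 cols (iotaL (K + 1) 0)) k.o32)
      (Nat.mul 32 (Nat.mul (powW k.r (iotaL 5 0)) (powT 6 cols (iotaL (K + 1) 0)))) : ℕ) : ℤ)
      = (colC k.r (iotaL 5 0) 6 cols (iotaL (K + 1) 0) : ℤ) + k.o32
        - (Nat.mul 32 (Nat.mul (powW k.r (iotaL 5 0)) (powT 6 cols (iotaL (K + 1) 0))) : ℕ) := by
    exact Nat.cast_sub hle
  rw [e1, eA, eB, e32]
  push_cast
  rw [show ∀ a b c : ℤ, a + b - c = (a - c) + b from fun a b c => by ring,
    ← Finset.sum_sub_distrib]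
  have e2 : ∑ j ∈ range cols.length, (∑ i ∈ range 5, ((d64 (cols.getD j Zc) i : ℤ)
        * 64 ^ ((K + 1) * i + 1 * j)) - ∑ i ∈ range 5, (32 : ℤ) * 64 ^ ((K + 1) * i + 1 * j))
      = ∑ i ∈ range (K + 1), ∑ j ∈ range (K + 1), fE cols i j * 64 ^ ((K + 1) * i + 1 * j) := by
    rw [Finset.sum_comm (s := range (K + 1)) (t := range (K + 1))]
    rw [← Finset.sum_subset (Finset.range_subset_range.2 hlen)]
    · refine Finset.sum_congr rfl fun j _ => ?_
      rw [← Finset.sum_sub_distrib, ← Finset.sum_subset (Finset.range_subset_range.2 hK5)]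
      · refine Finset.sum_congr rfl fun i hi => ?_
        unfold fE
        rw [if_pos (Finset.mem_range.1 hi)]; ring
      · intro i _ hi
        have : ¬ i < 5 := fun h => hi (Finset.mem_range.2 h)
        unfold fE
        rw [if_neg this, zero_mul]
    · intro j _ hj
      refine Finset.sum_eq_zero fun i _ => ?_
      rw [fE_ge (not_lt.1 fun h => hj (Finset.mem_range.2 h)) i, zero_mul]
  rw [e2, ← Finset.sum_add_distrib]
  refine Finset.sum_congr rfl fun i _ => ?_
  rw [← Finset.sum_add_distrib]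
  exact Finset.sum_congr rfl fun j _ => by ring

/-! ### Graph records -/

/-- number of steps of a graph record. -/
def gN (d : ℕ) : ℕ := Nat.mod (Nat.shiftRight d 37) 16
/-- class of a graph record. -/
def gI (d : ℕ) : ℕ := Nat.mod (Nat.shiftRight d 41) 16777216
/-- exponent of a graph record. -/
def gE (d : ℕ) : ℕ := Nat.mod (Nat.shiftRight d 65) 256

/-- check of one graph (parity `pr`, packed columns `cols`, marks first); record `d`: rows (18
bits), columns (18), transposition (1), number of steps (4), class (24), exponent (8), script (11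
bits for each step). -/
noncomputable def gck (k : Cst) (E2 K : ℕ) (m : Bool) (tr : Tr) (pr : ℕ) (cols : List ℕ) (d : ℕ) :
    Bool :=
  force (Nat.mod (Nat.shiftRight d 37) 16) fun n =>
  force (Nat.mod (Nat.shiftRight d 41) 16777216) fun i =>
  cond (Nat.beq n 0)
    (and (Nat.beq 0 (Nat.mod (Nat.shiftRight d 65) 256))
      (and ((tr.get i).1 == Nat.beq pr 1)
        (eck k K (octL 5 d) (octL (K - 4) (Nat.shiftRight d 15))
          (octL (K + 1) (Nat.shiftRight d 18)) (Nat.beq (Nat.mod (Nat.shiftRight d 36) 2) 1) cols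
          (tr.get i).2)))
    (and (smCs cols) (and (Nat.ble cols.length (K + 1)) (and (Nat.ble 4 K)
      (force (pkC k K cols) fun C =>
        runW k E2 K m n (Nat.shiftRight d 73) (Nat.beq pr 1) 0 C fun b' e' C' =>
          and ((tr.get i).1 == b') (and (Nat.beq e' (Nat.mod (Nat.shiftRight d 65) 256))
            (and (smN k C') (and (permOK K k.E (octL (K + 1) d))
              (and (permOK K k.E (octL (K + 1) (Nat.shiftRight d 18)))
                (fck k (octL (K + 1) d) (octL (K + 1) (Nat.shiftRight d 18))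
                  (Nat.beq (Nat.mod (Nat.shiftRight d 36) 2) 1) C' (tr.get i).2)))))))))

theorem gck_sound (hx : Good m x) {k : Cst} (hk : k.Ok K) {E2 : ℕ} (hE2 : CstE2 K E2) {tr : Tr}
    {pr : ℕ} {cols : List ℕ} {d : ℕ} (h : gck k E2 K m tr pr cols d = true) :
    (6 : ℝ) ^ gE d * rv x (Nat.beq pr 1) (Mf K (fE cols)) = vl K x tr (gI d) := by
  unfold gck at h
  simp only [force_eq] at h
  obtain ⟨z, hz⟩ : ∃ z, z = Nat.beq (Nat.mod (Nat.shiftRight d 37) 16) 0 := ⟨_, rfl⟩
  rw [← hz] at h
  cases z with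
  | true =>
    simp only [cond_true, Bool.and_eq_true, beq_iff_eq] at h
    obtain ⟨he, hb, hc⟩ := h
    have he' : gE d = 0 := (Nat.eq_of_beq_eq_true he).symm
    have hb' : (tr.get (gI d)).1 = Nat.beq pr 1 := hb
    rw [he', pow_zero, one_mul]
    unfold vl
    rw [hb']
    exact eck_sound hx.1 hk hc _
  | false =>
    simp only [cond_false, Bool.and_eq_true, Nat.ble_eq] at h
    obtain ⟨hC, hlen, hK4, h⟩ := h
    have hI := pkC_isC hk hC hlen (by omega)
    obtain ⟨b', e', C', h3, h4⟩ := runW_sound hx hk hE2 h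
    simp only [Bool.and_eq_true, beq_iff_eq, Nat.beq_eq] at h3
    obtain ⟨hb, he, hs, hp, hp', hf⟩ := h3
    have e1 : rv x (Nat.beq pr 1) (Mf K (fE cols)) = pv K x (Nat.beq pr 1) (pkC k K cols) :=
      pv_isC false hI _
    have e2 : pv K x b' C' = cv K x b' ((tr.get (gI d)).2 : ℕ) := fck_sound hx.1 hk hs hp hp' hf b'
    have hb' : (tr.get (gI d)).1 = b' := hb
    have he' : e' = gE d := he
    unfold vl
    rw [e1, hb', ← e2, ← he']
    rw [h4, pow_zero, one_mul]

end Vale.Agent.P355.H138
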