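import Vale.Agent.P355.H349.Frame7
import Vale.Agent.P355.H349.Frame4
import Vale.Agent.P355.H147.Gv

/-! The flat unitary matrix of a pair of bases and a vector of a third basis, for any number of
mutually unbiased bases. -/

namespace Vale.Agent.P355.H138

open Finset Matrix Vale.Agent.P355 Vale.Agent.P355.H349

variable {n : ℕ} {B : Fin n → M6}

/-- `V_ac = 6 ⟨u|a⟩⟨a|c⟩⟨c|u⟩`, `a` in the basis `i`, `c` in the basis `j`. -/
noncomputable def VT (B : Fin n → M6) (i j : Fin n) (u : Fin n × Fin 6) : M6 :=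
  Matrix.of fun a c => 6 * (ip B u (i, a) * ip B (i, a) (j, c) * ip B (j, c) u)

theorem VT_apply (i j : Fin n) (u : Fin n × Fin 6) (a c : Fin 6) :
    VT B i j u a c = 6 * (ip B u (i, a) * ip B (i, a) (j, c) * ip B (j, c) u) := rfl

theorem star_VT (i j : Fin n) (u : Fin n × Fin 6) (a c : Fin 6) :
    star (VT B i j u a c) = 6 * (ip B (i, a) u * ip B (j, c) (i, a) * ip B u (j, c)) := by
  rw [VT_apply]
  simp only [star_mul', star_ip']
  simp

variable {i j : Fin n} {u : Fin n × Fin 6}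

theorem flat6_VT (hB : IsMUBs B) (hij : i ≠ j) (hi : u.1 ≠ i) (hj : u.1 ≠ j) :
    Flat6 (VT B i j u) := by
  have g1 : ∀ a, ip B u (i, a) * ip B (i, a) u = 1 / 6 := fun a => ip_mul hB hi
  have g2 : ∀ c, ip B u (j, c) * ip B (j, c) u = 1 / 6 := fun c => ip_mul hB hj
  have g3 : ∀ a c, ip B (i, a) (j, c) * ip B (j, c) (i, a) = 1 / 6 := fun a c =>
    ip_mul hB (u := (i, a)) (v := (j, c)) hij
  refine ⟨fun a a' => ?_, fun a c => ?_, fun a => ?_, fun c => ?_⟩
  · have h : ∀ c, VT B i j u a c * star (VT B i j u a' c)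
        = 6 * (ip B u (i, a) * ip B (i, a') u) * (ip B (i, a) (j, c) * ip B (j, c) (i, a')) := by
      intro c
      rw [VT_apply, star_VT]
      linear_combination (36 * (ip B u (i, a) * ip B (i, a') u) *
        (ip B (i, a) (j, c) * ip B (j, c) (i, a'))) * g2 c
    simp only [h, ← Finset.mul_sum]
    rw [ip_complete hB j (i, a) (i, a'), ip_same hB i a a']
    unfold dl
    by_cases haa : a = a'
    · subst haa
      rw [if_pos rfl, g1]; norm_num
    · rw [if_neg haa, mul_zero]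
  · rw [star_VT, VT_apply]
    linear_combination (36 * (ip B (i, a) (j, c) * ip B (j, c) (i, a)) *
      (ip B u (j, c) * ip B (j, c) u)) * g1 a + (6 * (ip B (i, a) (j, c) * ip B (j, c) (i, a))) *
      g2 c + g3 a c
  · have h : ∀ c, VT B i j u a c
        = 6 * ip B u (i, a) * (ip B (i, a) (j, c) * ip B (j, c) u) := fun c => by
      rw [VT_apply]; ring
    simp only [h, ← Finset.mul_sum]
    rw [ip_complete hB j (i, a) u]
    linear_combination 6 * g1 a
  · have h : ∀ a, VT B i j u a c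
        = 6 * ip B (j, c) u * (ip B u (i, a) * ip B (i, a) (j, c)) := fun a => by
      rw [VT_apply]; ring
    simp only [h, ← Finset.mul_sum]
    rw [ip_complete hB i u (j, c)]
    linear_combination 6 * g2 c

theorem mulH (i j : Fin n) (a c : Fin 6) : ((B i)ᴴ * B j) a c = ip B (i, a) (j, c) := by
  rw [Matrix.mul_apply]
  rfl

theorem n7_VT (hB : IsMUBs B) (hij : i ≠ j) (hi : u.1 ≠ i) (hj : u.1 ≠ j) :
    H693.N7p (VT B i j u) := by
  have g2 : ∀ c, ip B u (j, c) * ip B (j, c) u = 1 / 6 := fun c => ip_mul hB hj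
  have hN : H693.N7p ((B i)ᴴ * B j) := (H182.triple (hB.1 i) (hB.1 j) (hB.1 u.1) (hB.2 i j hij)
    (hB.2 i u.1 (Ne.symm hi)) (hB.2 j u.1 (Ne.symm hj))).1
  intro e
  have h0 := hN e
  simp only [mulH] at h0
  have h1 : ∀ c, VT B i j u (e 0) c * VT B i j u (e 1) c * VT B i j u (e 2) c *
      (star (VT B i j u (e 3) c) * star (VT B i j u (e 4) c) * star (VT B i j u (e 5) c))
      = (216 * (ip B u (i, e 0) * ip B u (i, e 1) * ip B u (i, e 2) *
          (ip B (i, e 3) u * ip B (i, e 4) u * ip B (i, e 5) u))) *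
        (ip B (i, e 0) (j, c) * ip B (i, e 1) (j, c) * ip B (i, e 2) (j, c) *
          (star (ip B (i, e 3) (j, c)) * star (ip B (i, e 4) (j, c))
            * star (ip B (i, e 5) (j, c)))) := by
    intro c
    simp only [star_VT, star_ip']
    simp only [VT_apply]
    have p3 : (ip B u (j, c) * ip B (j, c) u) ^ 3 = (1 / 6) ^ 3 := by rw [g2]
    linear_combination (46656 * (ip B u (i, e 0) * ip B u (i, e 1) * ip B u (i, e 2) *
          (ip B (i, e 3) u * ip B (i, e 4) u * ip B (i, e 5) u)) *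
        (ip B (i, e 0) (j, c) * ip B (i, e 1) (j, c) * ip B (i, e 2) (j, c) *
          (ip B (j, c) (i, e 3) * ip B (j, c) (i, e 4) * ip B (j, c) (i, e 5)))) * p3
  simp only [h1, ← Finset.mul_sum, h0, mul_zero]

theorem VT_swap (i j : Fin n) (u : Fin n × Fin 6) : (VT B i j u)ᴴ = VT B j i u := by
  ext c a
  rw [Matrix.conjTranspose_apply, star_VT, VT_apply]
  ring

theorem flat7_VT (hB : IsMUBs B) (hij : i ≠ j) (hi : u.1 ≠ i) (hj : u.1 ≠ j) :
    Flat7 (VT B i j u) :=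
  ⟨flat6_VT hB hij hi hj, n7_VT hB hij hi hj, by
    rw [VT_swap]; exact n7_VT hB hij.symm hj hi⟩

/-- the array of a triple. -/
noncomputable def xT (B : Fin n → M6) (i j : Fin n) (u : Fin n × Fin 6) : Fin 7 → Fin 7 → ℂ :=
  x1 (VT B i j u)

theorem good_xT (hB : IsMUBs B) (hij : i ≠ j) (hi : u.1 ≠ i) (hj : u.1 ≠ j) :
    Good false (xT B i j u) := (flat7_VT hB hij hi hj).toFlat6.good

theorem n7x_xT (hB : IsMUBs B) (hij : i ≠ j) (hi : u.1 ≠ i) (hj : u.1 ≠ j) :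
    H182.N7x (xT B i j u) := (flat7_VT hB hij hi hj).n7x

/-! ### Natural functions as coloured graphs -/

theorem hh_ne (hne : u.1 ≠ i) (a : Fin 6) : H147.hh B u (i, a) = s6 * ip B u (i, a) := by
  unfold H147.hh
  rw [if_neg hne]
  rfl

theorem hh_ne' (hne : i ≠ u.1) (a : Fin 6) : H147.hh B (i, a) u = s6 * ip B (i, a) u := by
  unfold H147.hh
  rw [if_neg hne]
  rfl

theorem xT_ac (hij : i ≠ j) (hi : u.1 ≠ i) (hj : u.1 ≠ j) (a c : Fin 6) :
    xT B i j u a.castSucc c.castSucc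
      = H147.hh B u (i, a) * H147.hh B (i, a) (j, c) * H147.hh B (j, c) u := by
  unfold xT
  rw [x1_ac, VT_apply, hh_ne hi, hh_ne' (Ne.symm hj), hh_ne (u := (i, a)) hij]
  linear_combination (-(s6 * (ip B u (i, a) * ip B (i, a) (j, c) * ip B (j, c) u))) * s6_sq

/-- colours of the slots. -/
def colT : Fin 7 → Option (Fin 3) := ![some 0, some 0, some 0, some 1, some 1, some 1, some 2]

/-- flows of the slots: rows `0, 1, 2`, columns `3, 4, 5`, vector `6`. -/
def flT (g : Option (Fin 3) → Option (Fin 3) → ℤ) : Fin 7 → Fin 7 → ℤ :=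
  ![![0, 0, 0, g (some 0) (some 0), g (some 0) (some 1), g (some 0) (some 2), 0],
    ![0, 0, 0, g (some 1) (some 0), g (some 1) (some 1), g (some 1) (some 2), 0],
    ![0, 0, 0, g (some 2) (some 0), g (some 2) (some 1), g (some 2) (some 2), 0],
    ![0, 0, 0, 0, 0, 0, g (some 0) (some 0) + g (some 1) (some 0) + g (some 2) (some 0)],
    ![0, 0, 0, 0, 0, 0, g (some 0) (some 1) + g (some 1) (some 1) + g (some 2) (some 1)],
    ![0, 0, 0, 0, 0, 0, g (some 0) (some 2) + g (some 1) (some 2) + g (some 2) (some 2)],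
    ![g (some 0) (some 0) + g (some 0) (some 1) + g (some 0) (some 2),
      g (some 1) (some 0) + g (some 1) (some 1) + g (some 1) (some 2),
      g (some 2) (some 0) + g (some 2) (some 1) + g (some 2) (some 2), 0, 0, 0, 0]]

theorem hh_nz (hB : IsMUBs B) (p q : Fin n × Fin 6) : H147.hh B p q ≠ 0 := by
  intro h
  have := H147.hh_unit hB p q
  rw [h] at this
  simp at this

theorem mon_T (hB : IsMUBs B) (e : Fin 3 ↪ Fin n) (g : Option (Fin 3) → Option (Fin 3) → ℤ) (v : Fin 7 → Fin 6) :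
    H147.mon B e colT (flT g) v
      = mon (xT B (e 0) (e 1) (e 2, v 6)) g ![v 0, v 1, v 2] ![v 3, v 4, v 5] := by
  have h01 : e 0 ≠ e 1 := fun h => absurd (e.injective h) (by decide)
  have h20 : e 2 ≠ e 0 := fun h => absurd (e.injective h) (by decide)
  have h21 : e 2 ≠ e 1 := fun h => absurd (e.injective h) (by decide)
  have hx : ∀ a c, xT B (e 0) (e 1) (e 2, v 6) a.castSucc c.castSucc
      = H147.hh B (e 2, v 6) (e 0, a) * H147.hh B (e 0, a) (e 1, c) * H147.hh B (e 1, c) (e 2, v 6) :=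
    fun a c => xT_ac h01 h20 h21 a c
  have hm1 : ∀ a : Fin 6, xT B (e 0) (e 1) (e 2, v 6) a.castSucc 6 = 1 := fun a => x1_a a
  have hm2 : ∀ c : Fin 7, xT B (e 0) (e 1) (e 2, v 6) 6 c = 1 := fun c => x1_c c
  unfold H147.mon mon
  simp only [Fintype.prod_option, Fin.prod_univ_succ, Fin.prod_univ_zero, mul_one, ex_none, ex_some,
    hm1, hm2, one_zpow, one_mul]
  simp [hx, colT, flT, H147.pt, mul_zpow, zpow_add₀ (hh_nz hB _ _)]
  ring

/-- splitting of the slots. -/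
def splitT : (Fin 7 → Fin 6) ≃ (Fin 3 → Fin 6) × (Fin 3 → Fin 6) × Fin 6 where
  toFun v := (![v 0, v 1, v 2], ![v 3, v 4, v 5], v 6)
  invFun t := ![t.1 0, t.1 1, t.1 2, t.2.1 0, t.2.1 1, t.2.1 2, t.2.2]
  left_inv v := by
    funext i
    fin_cases i <;> rfl
  right_inv t := by
    obtain ⟨φ, ψ, b⟩ := t
    simp only [Prod.mk.injEq]
    refine ⟨?_, ?_, rfl⟩
    · funext i
      fin_cases i <;> rfl
    · funext i
      fin_cases i <;> rfl

/-- **Natural functions of the arrays of the triples are coloured graphs** (free vertices). -/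
theorem gv_T (hB : IsMUBs B) (g : Option (Fin 3) → Option (Fin 3) → ℤ) :
    H147.gv B colT (fun _ => false) (flT g) = (Fintype.card (Fin 3 ↪ Fin n) : ℂ)⁻¹ *
      ∑ e : Fin 3 ↪ Fin n, 6⁻¹ * ∑ b, gv (xT B (e 0) (e 1) (e 2, b)) g := by
  unfold H147.gv H147.av
  rw [mul_assoc]
  congr 1
  rw [Finset.mul_sum]
  refine Finset.sum_congr rfl fun e _ => ?_
  have hfg : ∀ v, H147.fg B e colT (fun _ => false) (flT g) v
      = mon (xT B (e 0) (e 1) (e 2, v 6)) g ![v 0, v 1, v 2] ![v 3, v 4, v 5] := by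
    intro v
    unfold H147.fg
    rw [if_pos, mon_T hB]
    intro p q _ h
    exact absurd h (by simp)
  simp only [hfg]
  have h1 : ∑ v : Fin 7 → Fin 6,
      mon (xT B (e 0) (e 1) (e 2, v 6)) g ![v 0, v 1, v 2] ![v 3, v 4, v 5]
      = ∑ t : (Fin 3 → Fin 6) × (Fin 3 → Fin 6) × Fin 6,
        mon (xT B (e 0) (e 1) (e 2, t.2.2)) g t.1 t.2.1 :=
    Fintype.sum_equiv splitT _ _ fun v => rfl
  rw [h1, Fintype.sum_prod_type]
  simp only [Fintype.sum_prod_type]
  have h2 : ∑ φ : Fin 3 → Fin 6, ∑ ψ : Fin 3 → Fin 6, ∑ b : Fin 6,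
      mon (xT B (e 0) (e 1) (e 2, b)) g φ ψ
      = ∑ b : Fin 6, ∑ φ : Fin 3 → Fin 6, ∑ ψ : Fin 3 → Fin 6,
      mon (xT B (e 0) (e 1) (e 2, b)) g φ ψ := by
    have h3 : ∀ φ : Fin 3 → Fin 6, ∑ ψ : Fin 3 → Fin 6, ∑ b : Fin 6,
        mon (xT B (e 0) (e 1) (e 2, b)) g φ ψ
        = ∑ b : Fin 6, ∑ ψ : Fin 3 → Fin 6, mon (xT B (e 0) (e 1) (e 2, b)) g φ ψ :=
      fun φ => Finset.sum_comm
    simp only [h3]
    rw [Finset.sum_comm]
  rw [h2]
  unfold gv
  simp only [Fintype.card_fin]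
  rw [← Finset.mul_sum, ← mul_assoc]
  congr 1
  rw [← pow_succ']

/-! ### Real values -/

theorem gv_star (x : Fin 7 → Fin 7 → ℂ) (g : Option (Fin 3) → Option (Fin 3) → ℤ) :
    gv (fun r c => star (x r c)) g = star (gv x g) := by
  unfold gv mon
  simp only [star_mul', star_sum, star_prod, star_zpow₀]
  simp

theorem gv_xT_swap (i j : Fin n) (u : Fin n × Fin 6) (g : Option (Fin 3) → Option (Fin 3) → ℤ) :
    gv (fun r c => xT B i j u c r) g = star (gv (xT B j i u) g) := by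
  rw [← gv_star]
  congr 1
  funext r c
  refine Fin.lastCases ?_ (fun a => ?_) r
  · refine Fin.lastCases ?_ (fun b => ?_) c
    · show x1 _ (6 : Fin 7) (6 : Fin 7) = star (x1 _ (6 : Fin 7) (6 : Fin 7))
      rw [x1_c, x1_c, star_one]
    · show x1 _ b.castSucc (6 : Fin 7) = star (x1 _ (6 : Fin 7) b.castSucc)
      rw [x1_a, x1_c, star_one]
  · refine Fin.lastCases ?_ (fun b => ?_) c
    · show x1 _ (6 : Fin 7) a.castSucc = star (x1 _ a.castSucc (6 : Fin 7))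
      rw [x1_c, x1_a, star_one]
    · show x1 _ b.castSucc a.castSucc = star (x1 _ a.castSucc b.castSucc)
      rw [x1_ac, x1_ac, star_mul', star_s6, ← VT_swap i j u, Matrix.conjTranspose_apply, star_star]

/-- exchange of the first two colours. -/
def swE (e : Fin 3 ↪ Fin n) : Fin 3 ↪ Fin n := (Equiv.swap (0 : Fin 3) 1).toEmbedding.trans e

theorem sum_swE (f : (Fin 3 ↪ Fin n) → ℂ) : ∑ e, f (swE e) = ∑ e, f e := by
  refine Fintype.sum_equiv ⟨swE, swE, fun e => ?_, fun e => ?_⟩ _ _ fun e => rfl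
  · ext i; simp [swE]
  · ext i; simp [swE]

/-- **The real values.** -/
theorem rv_T (hB : IsMUBs B) (b : Bool) (g : Option (Fin 3) → Option (Fin 3) → ℤ) :
    pw6 b * (H147.gv B colT (fun _ => false) (flT g)).re = (Fintype.card (Fin 3 ↪ Fin n) : ℝ)⁻¹ *
      ∑ e : Fin 3 ↪ Fin n, 6⁻¹ * ∑ k, rv (xT B (e 0) (e 1) (e 2, k)) b g := by
  have h1 : ∑ e : Fin 3 ↪ Fin n, 6⁻¹ * ∑ k, gv (xT B (e 0) (e 1) (e 2, k)) g
      = ∑ e : Fin 3 ↪ Fin n, 6⁻¹ * ∑ k, gv (xT B (e 1) (e 0) (e 2, k)) g := by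
    rw [← sum_swE fun e => 6⁻¹ * ∑ k, gv (xT B (e 0) (e 1) (e 2, k)) g]
    rfl
  have h2 : (∑ e : Fin 3 ↪ Fin n, 6⁻¹ * ∑ k, gv (xT B (e 0) (e 1) (e 2, k)) g).re
      = ∑ e : Fin 3 ↪ Fin n, 6⁻¹ * ∑ k, rv (xT B (e 0) (e 1) (e 2, k)) false g := by
    have h3 : (∑ e : Fin 3 ↪ Fin n, 6⁻¹ * ∑ k, gv (xT B (e 0) (e 1) (e 2, k)) g).re
        = ((∑ e : Fin 3 ↪ Fin n, 6⁻¹ * ∑ k, gv (xT B (e 0) (e 1) (e 2, k)) g).re
          + (∑ e : Fin 3 ↪ Fin n, 6⁻¹ * ∑ k, gv (xT B (e 1) (e 0) (e 2, k)) g).re) / 2 := by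
      rw [← h1]; ring
    have h6 : ∀ z : ℂ, ((6⁻¹ : ℂ) * z).re = 6⁻¹ * z.re := by
      intro z
      rw [show (6⁻¹ : ℂ) = ((6⁻¹ : ℝ) : ℂ) by norm_num, Complex.re_ofReal_mul]
    rw [h3]
    simp only [Complex.re_sum, h6]
    rw [← Finset.sum_add_distrib, Finset.sum_div]
    refine Finset.sum_congr rfl fun e _ => ?_
    rw [← mul_add, ← Finset.sum_add_distrib, mul_div_assoc, Finset.sum_div]
    congr 1
    refine Finset.sum_congr rfl fun k _ => ?_
    unfold rv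
    rw [gv_xT_swap]
    simp [pw6]
  have h4 : ∀ e : Fin 3 ↪ Fin n, ∑ k, rv (xT B (e 0) (e 1) (e 2, k)) b g
      = pw6 b * ∑ k, rv (xT B (e 0) (e 1) (e 2, k)) false g := by
    intro e
    rw [Finset.mul_sum]
    refine Finset.sum_congr rfl fun k _ => ?_
    unfold rv
    simp [pw6]
  rw [gv_T hB]
  have h5 : ((Fintype.card (Fin 3 ↪ Fin n) : ℂ)⁻¹ *
      ∑ e : Fin 3 ↪ Fin n, 6⁻¹ * ∑ k, gv (xT B (e 0) (e 1) (e 2, k)) g).re
      = (Fintype.card (Fin 3 ↪ Fin n) : ℝ)⁻¹ *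
        (∑ e : Fin 3 ↪ Fin n, 6⁻¹ * ∑ k, gv (xT B (e 0) (e 1) (e 2, k)) g).re := by
    rw [show ((Fintype.card (Fin 3 ↪ Fin n) : ℂ)⁻¹) = (((Fintype.card (Fin 3 ↪ Fin n) : ℝ)⁻¹ : ℝ) : ℂ)
      by push_cast; rfl, Complex.re_ofReal_mul]
  rw [h5, h2]
  simp only [h4]
  have h7 : ∀ e : Fin 3 ↪ Fin n, (6⁻¹ : ℝ) * (pw6 b * ∑ k, rv (xT B (e 0) (e 1) (e 2, k)) false g)
      = pw6 b * (6⁻¹ * ∑ k, rv (xT B (e 0) (e 1) (e 2, k)) false g) := fun e => by ring
  simp only [h7, ← Finset.mul_sum]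
  ring

/-- value of a coloured natural class. -/
noncomputable def cT (B : Fin n → M6) (b : Bool) (g : Option (Fin 3) → Option (Fin 3) → ℤ) : ℝ :=
  pw6 b * (H147.gv B colT (fun _ => false) (flT g)).re

/-- **Transfer of a strict inequality for flat unitary matrices to coloured classes.** -/
theorem pos_T (hB : IsMUBs B) (hn : 3 ≤ n) {ι : Type*} (s : Finset ι) (c : ι → ℝ) (b : ι → Bool)
    (g : ι → Option (Fin 3) → Option (Fin 3) → ℤ)
    (h : ∀ x, Good false x → H182.N7x x → 0 < ∑ t ∈ s, c t * rv x (b t) (g t)) :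
    0 < ∑ t ∈ s, c t * cT B (b t) (g t) := by
  have hne : Nonempty (Fin 3 ↪ Fin n) := ⟨Fin.castLEEmb hn⟩
  have hcard : (0 : ℝ) < (Fintype.card (Fin 3 ↪ Fin n) : ℝ)⁻¹ := by
    have : 0 < Fintype.card (Fin 3 ↪ Fin n) := Fintype.card_pos
    positivity
  have e1 : ∑ t ∈ s, c t * cT B (b t) (g t) = (Fintype.card (Fin 3 ↪ Fin n) : ℝ)⁻¹ *
      ∑ e : Fin 3 ↪ Fin n, 6⁻¹ * ∑ k, ∑ t ∈ s, c t * rv (xT B (e 0) (e 1) (e 2, k)) (b t) (g t) := by
    unfold cT
    simp only [rv_T hB, Finset.mul_sum]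
    rw [Finset.sum_comm]
    refine Finset.sum_congr rfl fun e _ => ?_
    rw [Finset.sum_comm]
    refine Finset.sum_congr rfl fun k _ => ?_
    refine Finset.sum_congr rfl fun t _ => ?_
    ring
  rw [e1]
  refine mul_pos hcard (Finset.sum_pos (fun e _ => ?_) Finset.univ_nonempty)
  refine mul_pos (by norm_num) (Finset.sum_pos (fun k _ => ?_) Finset.univ_nonempty)
  have h01 : e 0 ≠ e 1 := fun h => absurd (e.injective h) (by decide)
  have h20 : e 2 ≠ e 0 := fun h => absurd (e.injective h) (by decide)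
  have h21 : e 2 ≠ e 1 := fun h => absurd (e.injective h) (by decide)
  exact h _ (good_xT hB h01 h20 h21) (n7x_xT hB h01 h20 h21)

end Vale.Agent.P355.H138
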